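import Vale.Agent.P241.H585.GSpace
import Vale.Agent.P251.St.ToLC

/-!
# P241, block GEO-C: basic facts on `G`-maps, `G`-homotopies and `G`-homotopy equivalences

* `GMp X Y` : bundled pointed continuous `G`-maps `X⁺ → Y⁺`.
* `GHomotopic` is an equivalence relation, compatible with compositions.
* `GHEquiv` is an equivalence relation; `GHEquiv.of_homeo`, `GFC.of_homeo`.
-/

open OnePoint Topology
open Vale.Agent.P251.St Vale.Agent.P241.St
open Vale.Agent.P251.G (LC)

namespace Vale.Agent.P241.H858

variable {G : Type} [Group G]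

/-! ### the action on the one-point compactification -/

section act

variable (X : GSpace G)

@[simp] theorem smul_infty (g : G) : X.smul g ∞ = ∞ := rfl

@[simp] theorem smul_coe (g : G) (x : X.carrier) :
    X.smul g (x : OnePoint X.carrier) = ((g • x : X.carrier) : OnePoint X.carrier) := rfl

theorem smul_one (x : X.und.Pt) : X.smul 1 x = x := by
  induction x using OnePoint.rec with
  | infty => rfl
  | coe x => exact congrArg OnePoint.some (_root_.one_smul G x)

theorem smul_mul (g h : G) (x : X.und.Pt) : X.smul (g * h) x = X.smul g (X.smul h x) := by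
  induction x using OnePoint.rec with
  | infty => rfl
  | coe x => exact congrArg OnePoint.some (SemigroupAction.mul_smul g h x)

/-- the action of `g` is a homeomorphism -/
def actHomeo (g : G) : X.carrier ≃ₜ X.carrier := Homeomorph.smul g

theorem continuous_smul (g : G) : Continuous (X.smul g) := by
  have h : Continuous ((Homeomorph.smul g : X.carrier ≃ₜ X.carrier)).onePointCongr :=
    Homeomorph.continuous _
  exact h

theorem smul_inv_smul (g : G) (x : X.und.Pt) : X.smul g (X.smul g⁻¹ x) = x := by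
  rw [← smul_mul, mul_inv_cancel, smul_one]

theorem inv_smul_smul (g : G) (x : X.und.Pt) : X.smul g⁻¹ (X.smul g x) = x := by
  rw [← smul_mul, inv_mul_cancel, smul_one]

end act

/-! ### `G`-homotopies -/

section htpy

variable {X Y Z : GSpace G}

theorem isGMap_id : IsGMap (X := X) (Y := X) (id : X.und.Pt → X.und.Pt) := fun _ _ => rfl

theorem IsGMap.comp {f : X.und.Pt → Y.und.Pt} {g : Y.und.Pt → Z.und.Pt}
    (hg : IsGMap (X := Y) (Y := Z) g) (hf : IsGMap (X := X) (Y := Y) f) :
    IsGMap (X := X) (Y := Z) (g ∘ f) := by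
  intro a x
  change g (f (X.smul a x)) = Z.smul a (g (f x))
  rw [hf, hg]

theorem isGMap_infty : IsGMap (X := X) (Y := Y) (fun _ => ∞) := fun _ _ => rfl

theorem IsGHtpy.const (f : Map X.und Y.und) (hf : IsGMap (X := X) (Y := Y) f.toFun) :
    IsGHtpy (X := X) (Y := Y) (fun _ => f.toFun) :=
  ⟨⟨f.cont.comp continuous_snd, fun _ => f.map_infty⟩, fun _ => hf⟩

theorem GHomotopic.refl (f : Map X.und Y.und) (hf : IsGMap (X := X) (Y := Y) f.toFun) :
    GHomotopic (X := X) (Y := Y) f.toFun f.toFun :=
  ⟨_, IsGHtpy.const f hf, rfl, rfl⟩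

theorem IsGHtpy.symm {H : unitInterval → X.und.Pt → Y.und.Pt}
    (h : IsGHtpy (X := X) (Y := Y) H) :
    IsGHtpy (X := X) (Y := Y) (fun t => H (unitInterval.symm t)) := by
  refine ⟨⟨?_, fun t => h.1.2 _⟩, fun t => h.2 _⟩
  exact h.1.1.comp ((unitInterval.continuous_symm.comp continuous_fst).prodMk continuous_snd)

theorem GHomotopic.symm {f g : X.und.Pt → Y.und.Pt} (h : GHomotopic (X := X) (Y := Y) f g) :
    GHomotopic (X := X) (Y := Y) g f := by
  obtain ⟨H, hH, h0, h1⟩ := h
  refine ⟨_, IsGHtpy.symm hH, ?_, ?_⟩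
  · rw [unitInterval.symm_zero, h1]
  · rw [unitInterval.symm_one, h0]

/-- the concatenation of two homotopies -/
noncomputable def concat {P Q : Type} [TopologicalSpace P] [TopologicalSpace Q]
    (H K : unitInterval → P → Q) (t : unitInterval) : P → Q :=
  if h : (t : ℝ) ≤ 1 / 2 then H ⟨2 * t, by
      have := t.2.1
      constructor <;> linarith⟩
  else K ⟨2 * t - 1, by
      have := t.2.2
      push Not at h
      constructor <;> linarith⟩

theorem continuous_concat {P Q : Type} [TopologicalSpace P] [TopologicalSpace Q]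
    {H K : unitInterval → P → Q} (hH : Continuous (Function.uncurry H))
    (hK : Continuous (Function.uncurry K)) (h : H 1 = K 0) :
    Continuous (Function.uncurry (concat H K)) := by
  let f0 : C(P, Q) := ⟨H 0, hH.comp (continuous_const.prodMk continuous_id)⟩
  let f1 : C(P, Q) := ⟨H 1, hH.comp (continuous_const.prodMk continuous_id)⟩
  let f2 : C(P, Q) := ⟨K 1, hK.comp (continuous_const.prodMk continuous_id)⟩
  let F : ContinuousMap.Homotopy f0 f1 := ⟨⟨Function.uncurry H, hH⟩, fun _ => rfl, fun _ => rfl⟩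
  let F' : ContinuousMap.Homotopy f1 f2 :=
    ⟨⟨Function.uncurry K, hK⟩, fun x => (congrFun h x).symm, fun _ => rfl⟩
  have key : Function.uncurry (concat H K) = (F.trans F' : unitInterval × P → Q) := by
    funext ⟨t, x⟩
    rw [ContinuousMap.Homotopy.trans_apply]
    change concat H K t x = _
    unfold concat
    split_ifs <;> rfl
  rw [key]
  exact (F.trans F').continuous

theorem concat_zero {P Q : Type} [TopologicalSpace P] [TopologicalSpace Q]
    (H K : unitInterval → P → Q) : concat H K 0 = H 0 := by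
  unfold concat
  rw [dif_pos (by norm_num)]
  congr 1
  ext
  simp

theorem concat_one {P Q : Type} [TopologicalSpace P] [TopologicalSpace Q]
    (H K : unitInterval → P → Q) : concat H K 1 = K 1 := by
  unfold concat
  rw [dif_neg (by norm_num)]
  congr 1
  ext
  simp
  norm_num

theorem concat_ind {P Q : Type} [TopologicalSpace P] [TopologicalSpace Q]
    {H K : unitInterval → P → Q} {p : (P → Q) → Prop} (hH : ∀ t, p (H t)) (hK : ∀ t, p (K t))
    (t : unitInterval) : p (concat H K t) := by
  unfold concat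
  split_ifs
  · exact hH _
  · exact hK _

theorem GHomotopic.trans {f g k : X.und.Pt → Y.und.Pt} (h : GHomotopic (X := X) (Y := Y) f g)
    (h' : GHomotopic (X := X) (Y := Y) g k) : GHomotopic (X := X) (Y := Y) f k := by
  obtain ⟨H, hH, h0, h1⟩ := h
  obtain ⟨K, hK, k0, k1⟩ := h'
  refine ⟨concat H K, ⟨⟨continuous_concat hH.1.1 hK.1.1 (h1.trans k0.symm), ?_⟩, ?_⟩, ?_, ?_⟩
  · exact concat_ind (p := fun F => F ∞ = ∞) hH.1.2 hK.1.2
  · exact concat_ind (p := fun F => IsGMap (X := X) (Y := Y) F) hH.2 hK.2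
  · rw [concat_zero, h0]
  · rw [concat_one, k1]

theorem IsGHtpy.comp_left {H : unitInterval → X.und.Pt → Y.und.Pt}
    (h : IsGHtpy (X := X) (Y := Y) H) (g : Map Y.und Z.und)
    (hg : IsGMap (X := Y) (Y := Z) g.toFun) :
    IsGHtpy (X := X) (Y := Z) (fun t => g.toFun ∘ H t) := by
  refine ⟨⟨g.cont.comp h.1.1, fun t => ?_⟩, fun t => IsGMap.comp hg (h.2 t)⟩
  exact (congrArg g.toFun (h.1.2 t)).trans g.map_infty

theorem IsGHtpy.comp_right {H : unitInterval → Y.und.Pt → Z.und.Pt}
    (h : IsGHtpy (X := Y) (Y := Z) H) (f : Map X.und Y.und)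
    (hf : IsGMap (X := X) (Y := Y) f.toFun) :
    IsGHtpy (X := X) (Y := Z) (fun t => H t ∘ f.toFun) := by
  refine ⟨⟨?_, fun t => ?_⟩, fun t => IsGMap.comp (h.2 t) hf⟩
  · exact h.1.1.comp (continuous_fst.prodMk (f.cont.comp continuous_snd))
  · exact (congrArg (H t) f.map_infty).trans (h.1.2 t)

theorem GHomotopic.comp_left {f f' : X.und.Pt → Y.und.Pt}
    (h : GHomotopic (X := X) (Y := Y) f f') (g : Map Y.und Z.und)
    (hg : IsGMap (X := Y) (Y := Z) g.toFun) :
    GHomotopic (X := X) (Y := Z) (g.toFun ∘ f) (g.toFun ∘ f') := by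
  obtain ⟨H, hH, h0, h1⟩ := h
  refine ⟨_, IsGHtpy.comp_left hH g hg, ?_, ?_⟩
  · rw [h0]
  · rw [h1]

theorem GHomotopic.comp_right {g g' : Y.und.Pt → Z.und.Pt}
    (h : GHomotopic (X := Y) (Y := Z) g g') (f : Map X.und Y.und)
    (hf : IsGMap (X := X) (Y := Y) f.toFun) :
    GHomotopic (X := X) (Y := Z) (g ∘ f.toFun) (g' ∘ f.toFun) := by
  obtain ⟨H, hH, h0, h1⟩ := h
  refine ⟨_, IsGHtpy.comp_right hH f hf, ?_, ?_⟩
  · rw [h0]
  · rw [h1]

end htpy

/-! ### `G`-homotopy equivalences -/

section hequiv

variable {X Y Z : GSpace G}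

/-- the identity -/
def idMap (X : Space) : Map X X := ⟨id, continuous_id, rfl⟩

/-- composition of maps -/
def compMap {X Y Z : Space} (g : Map Y Z) (f : Map X Y) : Map X Z :=
  ⟨g.toFun ∘ f.toFun, g.cont.comp f.cont, by rw [Function.comp_apply, f.map_infty, g.map_infty]⟩

theorem GHEquiv.refl (X : GSpace G) : GHEquiv X X :=
  ⟨idMap _, idMap _, isGMap_id, isGMap_id, GHomotopic.refl (idMap _) isGMap_id,
    GHomotopic.refl (idMap _) isGMap_id⟩

theorem GHEquiv.symm (h : GHEquiv X Y) : GHEquiv Y X := by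
  obtain ⟨f, g, hf, hg, h1, h2⟩ := h
  exact ⟨g, f, hg, hf, h2, h1⟩

theorem GHEquiv.trans (h : GHEquiv X Y) (h' : GHEquiv Y Z) : GHEquiv X Z := by
  obtain ⟨f, g, hf, hg, h1, h2⟩ := h
  obtain ⟨f', g', hf', hg', h1', h2'⟩ := h'
  refine ⟨compMap f' f, compMap g g', IsGMap.comp (X := X) (Y := Y) (Z := Z) hf' hf,
    IsGMap.comp (X := Z) (Y := Y) (Z := X) hg hg', ?_, ?_⟩
  · have a := GHomotopic.comp_left (GHomotopic.comp_right h1' f hf) g hg
    exact GHomotopic.trans a h1
  · have a := GHomotopic.comp_left (GHomotopic.comp_right h2 g' hg') f' hf'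
    exact GHomotopic.trans a h2'

/-- the map given by a homeomorphism -/
def homeoMap {X Y : Space} (e : X.carrier ≃ₜ Y.carrier) : Map X Y :=
  ⟨OnePoint.map e, e.onePointCongr.continuous, rfl⟩

theorem isGMap_homeoMap (e : X.carrier ≃ₜ Y.carrier) (he : ∀ (g : G) x, e (g • x) = g • e x) :
    IsGMap (X := X) (Y := Y) (homeoMap (X := X.und) (Y := Y.und) e).toFun := by
  intro g x
  induction x using OnePoint.rec with
  | infty => rfl
  | coe x => exact congrArg OnePoint.some (he g x)

/-- A `G`-homeomorphism is a `G`-homotopy equivalence. -/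
theorem GHEquiv.of_homeo (e : X.carrier ≃ₜ Y.carrier) (he : ∀ (g : G) x, e (g • x) = g • e x) :
    GHEquiv X Y := by
  have he' : ∀ (g : G) y, e.symm (g • y) = g • e.symm y := by
    intro g y
    apply e.injective
    rw [he, e.apply_symm_apply, e.apply_symm_apply]
  refine ⟨homeoMap (X := X.und) (Y := Y.und) e, homeoMap (X := Y.und) (Y := X.und) e.symm,
    isGMap_homeoMap e he, isGMap_homeoMap e.symm he', ?_, ?_⟩
  · have h : (homeoMap (X := Y.und) (Y := X.und) e.symm).toFun ∘
        (homeoMap (X := X.und) (Y := Y.und) e).toFun = id := by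
      funext x
      induction x using OnePoint.rec with
      | infty => rfl
      | coe x => exact congrArg OnePoint.some (e.symm_apply_apply x)
    rw [h]
    exact GHomotopic.refl (idMap _) isGMap_id
  · have h : (homeoMap (X := X.und) (Y := Y.und) e).toFun ∘
        (homeoMap (X := Y.und) (Y := X.und) e.symm).toFun = id := by
      funext x
      induction x using OnePoint.rec with
      | infty => rfl
      | coe x => exact congrArg OnePoint.some (e.apply_symm_apply x)
    rw [h]
    exact GHomotopic.refl (idMap _) isGMap_id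

end hequiv

/-- A `G`-homeomorphic copy of a finite `G`-cell space is a finite `G`-cell space. -/
theorem _root_.Vale.Agent.P241.St.GFC.of_homeo {X Y : GSpace G} (h : GFC G X)
    (e : X.carrier ≃ₜ Y.carrier) (he : ∀ (g : G) x, e (g • x) = g • e x) : GFC G Y :=
  h.hequiv (GHEquiv.of_homeo e he)

/-- Any empty `G`-space is a finite `G`-cell space. -/
theorem _root_.Vale.Agent.P241.St.GFC.of_isEmpty (X : GSpace G) [h : IsEmpty X.carrier] :
    GFC G X := by
  refine GFC.empty.of_homeo (X := GSpace.triv G Em) (Y := X) ?_ ?_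
  · exact
      { toFun := fun x => Empty.elim x
        invFun := fun x => h.elim x
        left_inv := fun x => Empty.elim x
        right_inv := fun x => h.elim x
        continuous_toFun := continuous_of_const fun x => Empty.elim x
        continuous_invFun := continuous_of_const fun x => h.elim x }
  · intro _ x
    exact Empty.elim x

end Vale.Agent.P241.H858
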