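import Vale.Agent.P241.H858.Sum
import Mathlib.GroupTheory.QuotientGroup.Basic

/-!
# P241, block GEO-C: closure properties of finite `G`-cell spaces

* `gfc_prod` : products (`G` finite);
* `gfc_powFin`, `gfc_pow` : powers (`G` finite);
* `gfc_triv` : a finite cell space with trivial action;
* `gfc_xt` : the product with a finite cell space with trivial action (any `G`).
-/

open OnePoint Topology CategoryTheory MonoidalCategory
open Vale.Agent.P251.St Vale.Agent.P241.St
open Vale.Agent.P251.G (LC)

namespace Vale.Agent.P241.H858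

variable {G : Type} [Group G]

/-! ### products -/

theorem gfc_swap {X Y : GSpace G} (h : GFC G (X.prod Y)) : GFC G (Y.prod X) :=
  h.of_homeo (X := X.prod Y) (Y := Y.prod X) (Homeomorph.prodComm X.carrier Y.carrier)
    (fun _ _ => rfl)

theorem gfc_prod_of {P : GSpace G} (hcell : ∀ (V : Subgroup G) n, GFC G ((cell G V n).prod P))
    {X : GSpace G} (hX : GFC G X) : GFC G (X.prod P) := by
  induction hX with
  | empty =>
    haveI : IsEmpty ((GSpace.triv G Em).prod P).carrier := ⟨fun x => Empty.elim x.1⟩
    exact GFC.of_isEmpty _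
  | cell V n => exact hcell V n
  | hequiv _ h ih => exact ih.hequiv (GHEquiv.prod_right h P)
  | ext hi hq hc hiq _ _ ihA ihC =>
    exact GFC.ext (isGMap_prodMap hi isGMap_id) (isGMap_prodMap hq isGMap_id)
      (GCofib.prod_right hi hc P) (isQuot_prod hiq P.und) ihA ihC

/-- the product of two `G`-sets with vector spaces -/
theorem gfc_gset_prod {S S' : Type} [MulAction G S] [MulAction G S'] {n m : ℕ}
    (h : GFC G (gset G (S × S') (n + m))) : GFC G ((gset G S n).prod (gset G S' m)) := by
  let e : (gset G (S × S') (n + m)).carrier ≃ₜ ((gset G S n).prod (gset G S' m)).carrier :=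
    letI tS : TopologicalSpace S := ⊥
    letI tS' : TopologicalSpace S' := ⊥
    haveI : DiscreteTopology S := ⟨rfl⟩
    haveI : DiscreteTopology S' := ⟨rfl⟩
    have hP : (⊥ : TopologicalSpace (S × S')) = instTopologicalSpaceProd :=
      (DiscreteTopology.eq_bot).symm
    have hc : @Continuous ((S × (Fin n → ℝ)) × (S' × (Fin m → ℝ))) (S × S') _ ⊥
        (fun q => (q.1.1, q.2.1)) := by
      rw [hP]
      exact (continuous_fst.comp continuous_fst).prodMk (continuous_fst.comp continuous_snd)
    letI tP : TopologicalSpace (S × S') := ⊥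
    { toFun := fun p => ((p.1.1, ((Fin.appendHomeomorph n m).symm p.2).1),
        (p.1.2, ((Fin.appendHomeomorph n m).symm p.2).2))
      invFun := fun q => ((q.1.1, q.2.1), Fin.appendHomeomorph n m (q.1.2, q.2.2))
      left_inv := fun p => Prod.ext rfl ((Fin.appendHomeomorph n m).apply_symm_apply p.2)
      right_inv := fun q => by
        have h1 := (Fin.appendHomeomorph n m).symm_apply_apply (q.1.2, q.2.2)
        have h2 := congrArg Prod.fst h1
        have h3 := congrArg Prod.snd h1
        exact Prod.ext (Prod.ext rfl h2) (Prod.ext rfl h3)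
      continuous_toFun := by
        haveI : DiscreteTopology (S × S') := ⟨rfl⟩
        have c1 : Continuous (fun p : (S × S') × (Fin (n + m) → ℝ) => p.1.1) :=
          (continuous_of_discreteTopology (f := fun s : S × S' => s.1)).comp continuous_fst
        have c2 : Continuous (fun p : (S × S') × (Fin (n + m) → ℝ) => p.1.2) :=
          (continuous_of_discreteTopology (f := fun s : S × S' => s.2)).comp continuous_fst
        have c3 : Continuous (fun p : (S × S') × (Fin (n + m) → ℝ) =>
            (Fin.appendHomeomorph n m).symm p.2) :=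
          (Fin.appendHomeomorph n m).symm.continuous.comp continuous_snd
        exact (c1.prodMk (continuous_fst.comp c3)).prodMk (c2.prodMk (continuous_snd.comp c3))
      continuous_invFun := by
        refine Continuous.prodMk hc ?_
        exact (Fin.appendHomeomorph n m).continuous.comp
          ((continuous_snd.comp continuous_fst).prodMk (continuous_snd.comp continuous_snd)) }
  exact h.of_homeo e (fun _ _ => rfl)

theorem gfc_cell_prod [Finite G] (V W : Subgroup G) (n m : ℕ) :
    GFC G ((cell G V n).prod (cell G W m)) :=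
  gfc_gset_prod (S := G ⧸ V) (S' := G ⧸ W) (gfc_gset _ _)

/-- The product of two finite `G`-cell spaces is a finite `G`-cell space. -/
theorem gfc_prod [Finite G] {X Y : GSpace G} (hX : GFC G X) (hY : GFC G Y) :
    GFC G (X.prod Y) :=
  gfc_prod_of (fun V n => gfc_swap (gfc_prod_of (fun W m => gfc_cell_prod W V m n) hY)) hX

/-! ### the point, powers -/

theorem gfc_of_unique (X : GSpace G) [Unique X.carrier] : GFC G X := by
  haveI : Subsingleton (G ⧸ (⊤ : Subgroup G)) := QuotientGroup.subsingleton_quotient_top
  haveI : Subsingleton (Fin 0 → ℝ) := inferInstance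
  let x0 : (cell G ⊤ 0).carrier := (((1 : G) : G ⧸ (⊤ : Subgroup G)), fun _ => 0)
  have hs : ∀ x y : (cell G ⊤ 0).carrier, x = y := fun x y =>
    Prod.ext (Subsingleton.elim (α := G ⧸ (⊤ : Subgroup G)) x.1 y.1)
      (Subsingleton.elim (α := Fin 0 → ℝ) x.2 y.2)
  refine (GFC.cell (G := G) ⊤ 0).of_homeo (X := cell G ⊤ 0) (Y := X)
    { toFun := fun _ => default
      invFun := fun _ => x0
      left_inv := fun x => hs _ _
      right_inv := fun x => Subsingleton.elim _ _
      continuous_toFun := continuous_const
      continuous_invFun := continuous_const } ?_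
  intro g x
  exact Subsingleton.elim _ _

/-- the power `J → X` with the pointwise action -/
abbrev powSpaceG (X : GSpace G) (J : Type) [Finite J] : GSpace G := ⟨J → X.carrier⟩

/-- the homeomorphism `X × X^m ≃ X^(m+1)` -/
def consHomeo (X : Type) [TopologicalSpace X] (m : ℕ) :
    X × (Fin m → X) ≃ₜ (Fin (m + 1) → X) where
  toFun p := Fin.cons (α := fun _ => X) p.1 p.2
  invFun x := (x 0, fun i => x i.succ)
  left_inv p := by
    refine Prod.ext ?_ ?_
    · exact Fin.cons_zero (α := fun _ => X) p.1 p.2
    · funext i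
      exact Fin.cons_succ (α := fun _ => X) p.1 p.2 i
  right_inv x := by
    funext i
    refine Fin.cases ?_ (fun i => ?_) i
    · exact Fin.cons_zero (α := fun _ => X) _ _
    · exact Fin.cons_succ (α := fun _ => X) _ _ _
  continuous_toFun := by
    refine continuous_pi fun i => ?_
    refine Fin.cases ?_ (fun i => ?_) i
    · simp only [Fin.cons_zero]
      exact continuous_fst
    · simp only [Fin.cons_succ]
      exact (continuous_apply i).comp continuous_snd
  continuous_invFun := (continuous_apply 0).prodMk (continuous_pi fun i => continuous_apply i.succ)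

theorem gfc_powFin [Finite G] {X : GSpace G} (hX : GFC G X) (m : ℕ) :
    GFC G (powSpaceG X (Fin m)) := by
  induction m with
  | zero =>
    haveI : Unique (powSpaceG X (Fin 0)).carrier :=
      inferInstanceAs (Unique (Fin 0 → X.carrier))
    exact gfc_of_unique _
  | succ m ih =>
    refine (gfc_prod hX ih).of_homeo (X := X.prod (powSpaceG X (Fin m)))
      (Y := powSpaceG X (Fin (m + 1))) (consHomeo X.carrier m) ?_
    rintro g ⟨x, y⟩
    funext i
    refine Fin.cases ?_ (fun i => ?_) i
    · rfl
    · rfl

/-- Powers of finite `G`-cell spaces. -/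
theorem gfc_pow [Finite G] {X : GSpace G} (hX : GFC G X) (J : Type) [Finite J] :
    GFC G (powSpaceG X J) := by
  obtain ⟨m, ⟨e⟩⟩ := Finite.exists_equiv_fin J
  refine (gfc_powFin hX m).of_homeo (X := powSpaceG X (Fin m)) (Y := powSpaceG X J)
    { toFun := fun x j => x (e j)
      invFun := fun y i => y (e.symm i)
      left_inv := fun x => funext fun i => by
        change x (e (e.symm i)) = x i
        rw [Equiv.apply_symm_apply]
      right_inv := fun y => funext fun j => by
        change y (e.symm (e j)) = y j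
        rw [Equiv.symm_apply_apply]
      continuous_toFun := continuous_pi fun j => continuous_apply (e j)
      continuous_invFun := continuous_pi fun i => continuous_apply (e.symm i) } ?_
  intro g x
  rfl

/-! ### the trivial action -/

section triv

variable {A B : Space}

/-- the inclusion of the fixed points -/
def fixIncl (Z : GSpace G) (V : Subgroup G) : Map (Z.fix V) Z.und :=
  ofHom (X := Z.fix V) (Y := Z.und)
    (LC.ofClosed (X := toLC (Z.fix V)) (Y := toLC Z.und) Subtype.val
      (Z.isClosed_fixedPoints V).isClosedEmbedding_subtypeVal)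

theorem fixIncl_coe (Z : GSpace G) (V : Subgroup G) (z : MulAction.fixedPoints V Z.carrier) :
    (fixIncl Z V).toFun (OnePoint.some (X := MulAction.fixedPoints V Z.carrier) z) =
      OnePoint.some (X := Z.carrier) z.1 := rfl

theorem fixIncl_injective (Z : GSpace G) (V : Subgroup G) :
    Function.Injective (fixIncl Z V).toFun := by
  intro x y h
  induction x using OnePoint.rec with
  | infty =>
    induction y using OnePoint.rec with
    | infty => rfl
    | coe y => exact absurd h (OnePoint.infty_ne_coe _)
  | coe x =>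
    induction y using OnePoint.rec with
    | infty => exact absurd h (OnePoint.coe_ne_infty _)
    | coe y => exact congrArg OnePoint.some (Subtype.ext (OnePoint.coe_injective h))

theorem fixIncl_isInducing (Z : GSpace G) (V : Subgroup G) : IsInducing (fixIncl Z V).toFun :=
  ((fixIncl Z V).cont.isClosedEmbedding (fixIncl_injective Z V)).isInducing

theorem smul_fixIncl (Z : GSpace G) (g : G) (z : (Z.fix ⊤).Pt) :
    Z.smul g ((fixIncl Z ⊤).toFun z) = (fixIncl Z ⊤).toFun z := by
  induction z using OnePoint.rec with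
  | infty => rfl
  | coe z => exact congrArg (OnePoint.some (X := Z.carrier)) (z.2 ⟨g, Subgroup.mem_top g⟩)

theorem exists_fixIncl (Z : GSpace G) (z : Z.und.Pt) (hz : ∀ g, Z.smul g z = z) :
    ∃ w : (Z.fix ⊤).Pt, (fixIncl Z ⊤).toFun w = z := by
  induction z using OnePoint.rec with
  | infty => exact ⟨∞, rfl⟩
  | coe z =>
    refine ⟨OnePoint.some (X := MulAction.fixedPoints (⊤ : Subgroup G) Z.carrier)
      ⟨z, fun g => ?_⟩, rfl⟩
    exact OnePoint.coe_injective (hz g.1)

theorem smul_trivG (X : Space) (g : G) (x : X.Pt) :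
    (GSpace.triv G X).smul g x = x := by
  induction x using OnePoint.rec <;> rfl

theorem isGMap_triv {X Y : Space} (f : X.Pt → Y.Pt) :
    IsGMap (X := GSpace.triv G X) (Y := GSpace.triv G Y) f := by
  intro g x
  exact (congrArg f (smul_trivG X g x)).trans (smul_trivG Y g (f x)).symm

theorem gHEquiv_triv {X Y : Space} (h : HEquiv X Y) :
    GHEquiv (GSpace.triv G X) (GSpace.triv G Y) := by
  obtain ⟨f, g, ⟨H, hH, h0, h1⟩, ⟨K, hK, k0, k1⟩⟩ := h
  exact ⟨f, g, isGMap_triv f.toFun, isGMap_triv g.toFun, ⟨H, ⟨hH, fun t => isGMap_triv (H t)⟩,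
    h0, h1⟩, ⟨K, ⟨hK, fun t => isGMap_triv (K t)⟩, k0, k1⟩⟩

theorem gCofib_triv {i : Map A B} (h : Cofib i) :
    GCofib (A := GSpace.triv G A) (B := GSpace.triv G B) i := by
  intro Z f H hf hH hH0
  have hf' : ∀ b : B.Pt, ∃ w : (Z.fix ⊤).Pt, (fixIncl Z ⊤).toFun w = f.toFun b := by
    intro b
    refine exists_fixIncl Z _ fun g => ?_
    exact (hf g b).symm.trans (congrArg f.toFun (smul_trivG B g b))
  have hH' : ∀ (t : unitInterval) (a : A.Pt),
      ∃ w : (Z.fix ⊤).Pt, (fixIncl Z ⊤).toFun w = H t a := by
    intro t a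
    refine exists_fixIncl Z _ fun g => ?_
    exact (hH.2 t g a).symm.trans (congrArg (H t) (smul_trivG A g a))
  choose f' hf' using hf'
  choose H' hH' using hH'
  have cf : Continuous f' := by
    rw [(fixIncl_isInducing Z ⊤).continuous_iff]
    have h1 : (fixIncl Z ⊤).toFun ∘ f' = f.toFun := funext hf'
    rw [h1]
    exact f.cont
  have cH : Continuous (Function.uncurry H') := by
    rw [(fixIncl_isInducing Z ⊤).continuous_iff]
    have h1 : (fixIncl Z ⊤).toFun ∘ Function.uncurry H' = Function.uncurry H :=
      funext fun q => hH' q.1 q.2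
    rw [h1]
    exact hH.1.1
  have f0 : f' ∞ = ∞ := fixIncl_injective Z ⊤ ((hf' ∞).trans f.map_infty)
  have H0 : ∀ t, H' t ∞ = ∞ := fun t => fixIncl_injective Z ⊤ ((hH' t ∞).trans (hH.1.2 t))
  obtain ⟨K, hK, hK0, hK1⟩ := h (Z.fix ⊤) ⟨f', cf, f0⟩ H' ⟨cH, H0⟩ (by
    funext a
    apply fixIncl_injective Z ⊤
    exact (hH' 0 a).trans ((congrFun hH0 a).trans (hf' (i.toFun a)).symm))
  refine ⟨fun t b => (fixIncl Z ⊤).toFun (K t b), ⟨⟨(fixIncl Z ⊤).cont.comp hK.1, fun t => ?_⟩,
    fun t g b => ?_⟩, ?_, fun t => ?_⟩
  · exact (congrArg (fixIncl Z ⊤).toFun (hK.2 t)).trans (fixIncl Z ⊤).map_infty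
  · refine Eq.trans ?_ (smul_fixIncl Z g (K t b)).symm
    exact congrArg (fun b' => (fixIncl Z ⊤).toFun (K t b')) (smul_trivG B g b)
  · funext b
    exact (congrArg (fixIncl Z ⊤).toFun (congrFun hK0 b)).trans (hf' b)
  · funext a
    exact (congrArg (fixIncl Z ⊤).toFun (congrFun (hK1 t) a)).trans (hH' t a)

theorem gfc_triv_Rn (n : ℕ) : GFC G (GSpace.triv G (Rn n)) := by
  haveI : Subsingleton (G ⧸ (⊤ : Subgroup G)) := QuotientGroup.subsingleton_quotient_top
  refine (GFC.cell (G := G) ⊤ n).of_homeo (X := cell G ⊤ n) (Y := GSpace.triv G (Rn n))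
    { toFun := fun p : (G ⧸ (⊤ : Subgroup G)) × (Fin n → ℝ) => p.2
      invFun := fun v : Fin n → ℝ => (((1 : G) : G ⧸ (⊤ : Subgroup G)), v)
      left_inv := fun p => Prod.ext (Subsingleton.elim (α := G ⧸ (⊤ : Subgroup G)) _ _) rfl
      right_inv := fun v => rfl
      continuous_toFun := @continuous_snd _ _ ⊥ _
      continuous_invFun := @Continuous.prodMk _ _ _ ⊥ _ _ _ _ (@continuous_const _ _ _ ⊥ _)
        continuous_id } ?_
  intro g p
  rfl

variable (G) in
/-- A finite cell space with trivial action is a finite `G`-cell space. -/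
theorem gfc_triv {Y : Space} (h : FC Y) : GFC G (GSpace.triv G Y) := by
  induction h with
  | empty => exact GFC.empty
  | sph n => exact gfc_triv_Rn n
  | hequiv _ h ih => exact ih.hequiv (gHEquiv_triv h)
  | ext hi hq _ _ ihA ihC =>
    exact GFC.ext (isGMap_triv _) (isGMap_triv _) (gCofib_triv hi) hq ihA ihC

end triv

/-! ### products with spaces with trivial action -/

theorem gfc_cell_Rn (V : Subgroup G) (n m : ℕ) :
    GFC G ((cell G V n).prod (GSpace.triv G (Rn m))) := by
  let e : (cell G V (n + m)).carrier ≃ₜ ((cell G V n).prod (GSpace.triv G (Rn m))).carrier :=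
    letI tS : TopologicalSpace (G ⧸ V) := ⊥
    ((Homeomorph.refl (G ⧸ V)).prodCongr (Fin.appendHomeomorph (X := ℝ) n m).symm).trans
      (Homeomorph.prodAssoc (G ⧸ V) (Fin n → ℝ) (Fin m → ℝ)).symm
  exact (GFC.cell V (n + m)).of_homeo e (fun _ _ => rfl)

/-- the product with a finite cell space with trivial action, for any discrete group `G` -/
theorem gfc_xt {X : GSpace G} (hX : GFC G X) {Y : Space} (hY : FC Y) :
    GFC G (X.prod (GSpace.triv G Y)) := by
  refine gfc_prod_of (fun V n => gfc_swap ?_) hX
  clear hX X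
  induction hY with
  | empty =>
    haveI : IsEmpty ((GSpace.triv G Em).prod (cell G V n)).carrier :=
      ⟨fun x => Empty.elim x.1⟩
    exact GFC.of_isEmpty _
  | sph m => exact gfc_swap (gfc_cell_Rn V n m)
  | hequiv _ h ih => exact ih.hequiv (GHEquiv.prod_right (gHEquiv_triv h) _)
  | ext hi hq _ _ ihA ihC =>
    exact GFC.ext (isGMap_prodMap (isGMap_triv _) isGMap_id)
      (isGMap_prodMap (isGMap_triv _) isGMap_id)
      (GCofib.prod_right (isGMap_triv _) (gCofib_triv hi) _) (isQuot_prod hq _) ihA ihC

end Vale.Agent.P241.H858
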