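import Vale.Agent.P241.H858.Prod
import Vale.Agent.P251.G.Cofib

/-!
# P241, block GEO-C: `G`-cofibrations

* `GCofib.injective`;
* `cyl i` : the mapping cylinder `B ∪ (A × I)` of an injective `G`-map as a `G`-space;
* `GCofib.prod_right` : `i × 1_Y` is a `G`-cofibration.
-/

open OnePoint Topology CategoryTheory MonoidalCategory
open Vale.Agent.P251.St Vale.Agent.P241.St
open Vale.Agent.P251.G (LC)

namespace Vale.Agent.P241.H858

variable {G : Type} [Group G]

/-! ### injectivity -/

section inj

/-- the map `[0, 1] → [0, ∞]`, `t ↦ 1 / t - 1` -/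
noncomputable def toHalf (t : unitInterval) : Hh.Pt :=
  LC.app LC.coneMap' (t : OnePoint unitInterval)

theorem continuous_toHalf : Continuous toHalf :=
  (LC.continuous_app _).comp OnePoint.continuous_coe

theorem toHalf_zero : toHalf 0 = ∞ := by
  unfold toHalf LC.coneMap'
  refine LC.app_ofOpen_of_notMem _ _ ?_
  rintro ⟨s, hs⟩
  have h1 := congrArg Subtype.val hs
  have h2 : (1 : ℝ) / (1 + (s : ℝ)) = 0 := h1
  have h3 : (0 : ℝ) ≤ s := s.2
  have h4 : (0 : ℝ) < 1 / (1 + (s : ℝ)) := by positivity
  exact h4.ne' h2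

theorem toHalf_one : toHalf 1 = ((0 : NNReal) : OnePoint NNReal) := by
  have h : LC.coneFun 0 = 1 := by
    ext
    simp [LC.coneFun]
  unfold toHalf LC.coneMap'
  rw [← h]
  exact LC.app_ofOpen_coe _ _ _

variable {A B : GSpace G}

theorem GCofib.injective {i : Map A.und B.und} (h : GCofib (A := A) (B := B) i) :
    Function.Injective i.toFun := by
  let Z : GSpace G := A.prod (GSpace.triv G Hh)
  let H : unitInterval → A.und.Pt → Z.und.Pt := fun t a =>
    smash (X := A.und) (Y := Hh) a (toHalf t)
  have hH : IsGHtpy (X := A) (Y := Z) H := by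
    refine ⟨⟨?_, fun t => rfl⟩, fun t g a => ?_⟩
    · exact continuous_smash'.comp (continuous_snd.prodMk (continuous_toHalf.comp continuous_fst))
    · have h1 := smul_smash A (GSpace.triv G Hh) g a (toHalf t)
      have h2 : (GSpace.triv G Hh).smul g (toHalf t) = toHalf t := by
        generalize toHalf t = s
        induction s using OnePoint.rec <;> rfl
      rw [h2] at h1
      exact h1.symm
  obtain ⟨K, -, -, hK⟩ := h Z ⟨fun _ => ∞, continuous_const, rfl⟩ H isGMap_infty hH (by
    funext a
    change smash (X := A.und) (Y := Hh) a (toHalf 0) = ∞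
    rw [toHalf_zero, smash_infty_r])
  intro a a' haa
  have h1 : smash (X := A.und) (Y := Hh) a (toHalf 1) =
      smash (X := A.und) (Y := Hh) a' (toHalf 1) := by
    have e1 := congrFun (hK 1) a
    have e2 := congrFun (hK 1) a'
    have e3 : K 1 (i.toFun a) = K 1 (i.toFun a') := by rw [haa]
    exact (e1.symm.trans e3).trans e2
  rw [toHalf_one] at h1
  rcases smash_eq_smash_iff.mp h1 with ⟨h2, -⟩ | ⟨h2, h3⟩
  · exact h2
  · rcases h2 with h2 | h2
    · rcases h3 with h3 | h3
      · rw [h2, h3]
      · exact absurd h3 (OnePoint.coe_ne_infty _)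
    · exact absurd h2 (OnePoint.coe_ne_infty _)

end inj

/-! ### the mapping cylinder -/

section cyl

variable {A B : GSpace G}

/-- the mapping cylinder of an injective map as a set -/
def cylSet (i : Map A.und B.und) : Set (B.carrier × unitInterval) :=
  {p | p.2 = 0 ∨ (p.1 : OnePoint B.carrier) ∈ Set.range i.toFun}

theorem isClosed_range (i : Map A.und B.und) : IsClosed (Set.range i.toFun) :=
  (isCompact_range i.cont).isClosed

theorem isClosed_cylSet (i : Map A.und B.und) : IsClosed (cylSet i) := by
  have h : cylSet i = {p | p.2 = 0} ∪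
      (fun p : B.carrier × unitInterval => (p.1 : OnePoint B.carrier)) ⁻¹' Set.range i.toFun := rfl
  rw [h]
  exact (isClosed_eq continuous_snd continuous_const).union
    ((isClosed_range i).preimage (OnePoint.continuous_coe.comp continuous_fst))

theorem smul_mem_range {i : Map A.und B.und} (hi : IsGMap (X := A) (Y := B) i.toFun) (g : G)
    {b : B.und.Pt} (hb : b ∈ Set.range i.toFun) : B.smul g b ∈ Set.range i.toFun := by
  obtain ⟨a, rfl⟩ := hb
  exact ⟨A.smul g a, hi g a⟩

/-- the mapping cylinder of an injective `G`-map as a `G`-space -/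
def cyl (i : Map A.und B.und) (hi : IsGMap (X := A) (Y := B) i.toFun) : GSpace G :=
  letI : MulAction G (cylSet i) :=
    { smul := fun g p => ⟨(g • p.1.1, p.1.2), p.2.imp id fun h =>
        (smul_mem_range hi g h : B.smul g (OnePoint.some (X := B.carrier) p.1.1) ∈ _)⟩
      one_smul := fun p => Subtype.ext (Prod.ext (_root_.one_smul G p.1.1) rfl)
      mul_smul := fun g h p => Subtype.ext (Prod.ext (SemigroupAction.mul_smul g h p.1.1) rfl) }
  haveI : ContinuousConstSMul G (cylSet i) :=
    ⟨fun g => (((continuous_const_smul g).comp (continuous_fst.comp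
      continuous_subtype_val)).prodMk (continuous_snd.comp continuous_subtype_val)).subtype_mk _⟩
  haveI : LocallyCompactSpace (cylSet i) :=
    (isClosed_cylSet i).isClosedEmbedding_subtypeVal.locallyCompactSpace
  ⟨cylSet i⟩

/-- the interval as a space -/
abbrev Ii : Space := ⟨unitInterval⟩

variable (i : Map A.und B.und) (hi : IsGMap (X := A) (Y := B) i.toFun)

/-- the inclusion `cyl i → B × I` -/
def cylIncl : Map (cyl i hi).und (B.und.prod Ii) :=
  ofHom (X := (cyl i hi).und) (Y := B.und.prod Ii)
    (LC.ofClosed (X := toLC (cyl i hi).und) (Y := toLC (B.und.prod Ii))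
      (fun p : cylSet i => p.1) (isClosed_cylSet i).isClosedEmbedding_subtypeVal)

theorem cylIncl_coe (p : cylSet i) :
    (cylIncl i hi).toFun (OnePoint.some (X := cylSet i) p) =
      OnePoint.some (X := B.carrier × unitInterval) p.1 := rfl

theorem cylIncl_injective : Function.Injective (cylIncl i hi).toFun := by
  intro x y h
  induction x using OnePoint.rec with
  | infty =>
    induction y using OnePoint.rec with
    | infty => rfl
    | coe y => exact absurd h (OnePoint.infty_ne_coe _)
  | coe x =>
    induction y using OnePoint.rec with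
    | infty => exact absurd h (OnePoint.coe_ne_infty _)
    | coe y => exact congrArg OnePoint.some (Subtype.ext (OnePoint.coe_injective h))

theorem cylIncl_isInducing : IsInducing (cylIncl i hi).toFun :=
  ((cylIncl i hi).cont.isClosedEmbedding (cylIncl_injective i hi)).isInducing

open scoped Classical in
/-- the point `(i a, t)` of the mapping cylinder -/
noncomputable def cylA (t : unitInterval) (a : A.und.Pt) : (cyl i hi).und.Pt :=
  if h : ∃ b : B.carrier, (b : OnePoint B.carrier) = i.toFun a then
    OnePoint.some (X := cylSet i) ⟨(h.choose, t), Or.inr ⟨a, h.choose_spec.symm⟩⟩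
  else ∞

theorem cylIncl_cylA (t : unitInterval) (a : A.und.Pt) :
    (cylIncl i hi).toFun (cylA i hi t a) =
      smash (X := B.und) (Y := Ii) (i.toFun a) (t : OnePoint unitInterval) := by
  by_cases h : ∃ b : B.carrier, (b : OnePoint B.carrier) = i.toFun a
  · have e : cylA i hi t a = OnePoint.some (X := cylSet i)
        ⟨(h.choose, t), Or.inr ⟨a, h.choose_spec.symm⟩⟩ := dif_pos h
    rw [e]
    exact congrArg (fun z => smash (X := B.und) (Y := Ii) z (t : OnePoint unitInterval))
      h.choose_spec
  · have e : cylA i hi t a = ∞ := dif_neg h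
    have h1 : i.toFun a = ∞ := by
      by_contra h2
      exact h (OnePoint.ne_infty_iff_exists.mp h2)
    rw [e, h1]
    exact (cylIncl i hi).map_infty

/-- the point `(b, 0)` of the mapping cylinder -/
def cylB : Map B.und (cyl i hi).und :=
  ofHom (X := B.und) (Y := (cyl i hi).und)
    (LC.ofClosed (X := toLC B.und) (Y := toLC (cyl i hi).und)
      (fun b : B.carrier => (⟨(b, 0), Or.inl rfl⟩ : cylSet i)) (by
        have h : IsClosedEmbedding (fun b : B.carrier => (b, (0 : unitInterval))) := by
          have h1 := (isClosedEmbedding_iff (f := fun b : B.carrier => (b, (0 : unitInterval))))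
          rw [h1]
          refine ⟨isEmbedding_prodMkLeft 0, ?_⟩
          have h2 : Set.range (fun b : B.carrier => (b, (0 : unitInterval))) =
              {p | p.2 = 0} := by
            ext p
            constructor
            · rintro ⟨b, rfl⟩
              rfl
            · intro hp
              exact ⟨p.1, Prod.ext rfl hp.symm⟩
          rw [h2]
          exact isClosed_eq continuous_snd continuous_const
        exact IsClosedEmbedding.of_comp_iff
          (isClosed_cylSet i).isClosedEmbedding_subtypeVal |>.mp h))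

theorem cylIncl_cylB (b : B.und.Pt) :
    (cylIncl i hi).toFun ((cylB i hi).toFun b) =
      smash (X := B.und) (Y := Ii) b ((0 : unitInterval) : OnePoint unitInterval) := by
  induction b using OnePoint.rec <;> rfl

theorem cylA_zero (a : A.und.Pt) : cylA i hi 0 a = (cylB i hi).toFun (i.toFun a) := by
  apply cylIncl_injective i hi
  rw [cylIncl_cylA, cylIncl_cylB]

theorem cylA_infty (t : unitInterval) : cylA i hi t ∞ = ∞ := by
  apply cylIncl_injective i hi
  rw [cylIncl_cylA, i.map_infty, (cylIncl i hi).map_infty]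
  rfl

theorem cyl_surj (m : (cyl i hi).und.Pt) :
    (∃ b, (cylB i hi).toFun b = m) ∨ ∃ t a, cylA i hi t a = m := by
  induction m using OnePoint.rec with
  | infty => exact Or.inl ⟨∞, (cylB i hi).map_infty⟩
  | coe m =>
    obtain ⟨⟨b, t⟩, hb | ⟨a, ha⟩⟩ := m
    · left
      refine ⟨(b : OnePoint B.carrier), ?_⟩
      have h0 : t = 0 := hb
      subst h0
      rfl
    · right
      refine ⟨t, a, ?_⟩
      apply cylIncl_injective i hi
      rw [cylIncl_cylA, ha]
      rfl

theorem continuous_cylA : Continuous (Function.uncurry (cylA i hi)) := by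
  rw [(cylIncl_isInducing i hi).continuous_iff]
  have h : (cylIncl i hi).toFun ∘ Function.uncurry (cylA i hi) =
      fun q : unitInterval × A.und.Pt =>
        smash (X := B.und) (Y := Ii) (i.toFun q.2) (q.1 : OnePoint unitInterval) := by
    funext q
    exact cylIncl_cylA i hi q.1 q.2
  rw [h]
  exact (continuous_smash' (X := B.und) (Y := Ii)).comp ((i.cont.comp continuous_snd).prodMk
    ((OnePoint.continuous_coe (X := unitInterval)).comp continuous_fst))

theorem isGMap_cylIncl :
    IsGMap (X := cyl i hi) (Y := B.prod (GSpace.triv G Ii)) (cylIncl i hi).toFun := by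
  intro g m
  induction m using OnePoint.rec <;> rfl

theorem smul_triv (X : Space) (g : G) (x : X.Pt) : (GSpace.triv G X).smul g x = x := by
  induction x using OnePoint.rec <;> rfl

theorem isGMap_cylB : IsGMap (X := B) (Y := cyl i hi) (cylB i hi).toFun := by
  intro g b
  induction b using OnePoint.rec <;> rfl

theorem isGMap_cylA (t : unitInterval) : IsGMap (X := A) (Y := cyl i hi) (cylA i hi t) := by
  intro g a
  apply cylIncl_injective i hi
  have h1 := isGMap_cylIncl i hi g (cylA i hi t a)
  refine Eq.trans ?_ h1.symm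
  have h2 := smul_smash B (GSpace.triv G Ii) g (i.toFun a) (t : OnePoint unitInterval)
  rw [smul_triv] at h2
  rw [cylIncl_cylA, hi, cylIncl_cylA]
  exact h2.symm

/-- the retraction of the cylinder of `B` onto the mapping cylinder -/
theorem exists_retr (h : GCofib (A := A) (B := B) i) :
    ∃ K : unitInterval → B.und.Pt → (cyl i hi).und.Pt, IsGHtpy (X := B) (Y := cyl i hi) K ∧
      K 0 = (cylB i hi).toFun ∧ ∀ t, K t ∘ i.toFun = cylA i hi t := by
  refine h (cyl i hi) (cylB i hi) (cylA i hi) (isGMap_cylB i hi)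
    ⟨⟨continuous_cylA i hi, cylA_infty i hi⟩, isGMap_cylA i hi⟩ ?_
  funext a
  exact cylA_zero i hi a

end cyl

/-! ### products -/

section prod

variable {A B : GSpace G} (i : Map A.und B.und) (hi : IsGMap (X := A) (Y := B) i.toFun)
  (hinj : Function.Injective i.toFun) {Y : Space} {Z : Type} (f : (B.und.prod Y).Pt → Z)
  (H : unitInterval → (A.und.prod Y).Pt → Z)

open scoped Classical in
/-- the map on the product of the mapping cylinder and `Y⁺` defined by a map on `(B × Y)⁺` and a
homotopy on `(A × Y)⁺` -/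
noncomputable def glueFun (m : (cyl i hi).und.Pt) (y : Y.Pt) : Z :=
  if h : ∃ b, (cylB i hi).toFun b = m then f (smash h.choose y)
  else if h : ∃ q : unitInterval × A.und.Pt, cylA i hi q.1 q.2 = m then
    H h.choose.1 (smash h.choose.2 y)
  else f ∞

theorem cylB_injective : Function.Injective (cylB i hi).toFun := by
  intro b b' h
  have h1 := congrArg (cylIncl i hi).toFun h
  rw [cylIncl_cylB, cylIncl_cylB] at h1
  rcases smash_eq_smash_iff.mp h1 with ⟨h2, -⟩ | ⟨h2, h3⟩
  · exact h2
  · rcases h2 with h2 | h2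
    · rcases h3 with h3 | h3
      · rw [h2, h3]
      · exact absurd h3 (OnePoint.coe_ne_infty _)
    · exact absurd h2 (OnePoint.coe_ne_infty _)

theorem glueFun_cylB (b : B.und.Pt) (y : Y.Pt) :
    glueFun i hi f H ((cylB i hi).toFun b) y = f (smash b y) := by
  unfold glueFun
  have h : ∃ b', (cylB i hi).toFun b' = (cylB i hi).toFun b := ⟨b, rfl⟩
  rw [dif_pos h]
  have h1 := cylB_injective i hi h.choose_spec
  rw [h1]

theorem cylA_eq_iff {t t' : unitInterval} {a a' : A.und.Pt} (hinj : Function.Injective i.toFun)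
    (h : cylA i hi t a = cylA i hi t' a') : a = a' ∧ (a = ∞ ∨ t = t') := by
  have h1 := congrArg (cylIncl i hi).toFun h
  rw [cylIncl_cylA, cylIncl_cylA] at h1
  rcases smash_eq_smash_iff.mp h1 with ⟨h2, h3⟩ | ⟨h2, h3⟩
  · exact ⟨hinj h2, Or.inr (OnePoint.coe_injective h3)⟩
  · have key : ∀ (c : A.und.Pt) (s : unitInterval),
        (i.toFun c = ∞ ∨ (s : OnePoint unitInterval) = ∞) → c = ∞ := by
      intro c s hc
      rcases hc with hc | hc
      · exact hinj (hc.trans i.map_infty.symm)
      · exact absurd hc (OnePoint.coe_ne_infty _)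
    have e1 := key a t h2
    have e2 := key a' t' h3
    exact ⟨e1.trans e2.symm, Or.inl e1⟩

theorem cylB_eq_cylA {b : B.und.Pt} {t : unitInterval} {a : A.und.Pt}
    (h : (cylB i hi).toFun b = cylA i hi t a) : b = i.toFun a ∧ (b = ∞ ∨ t = 0) := by
  have h1 := congrArg (cylIncl i hi).toFun h
  rw [cylIncl_cylA, cylIncl_cylB] at h1
  rcases smash_eq_smash_iff.mp h1 with ⟨h2, h3⟩ | ⟨h2, h3⟩
  · exact ⟨h2, Or.inr (OnePoint.coe_injective h3).symm⟩
  · have e1 : b = ∞ := h2.resolve_right (OnePoint.coe_ne_infty _)
    have e2 : i.toFun a = ∞ := h3.resolve_right (OnePoint.coe_ne_infty _)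
    exact ⟨e1.trans e2.symm, Or.inl e1⟩

include hinj in
theorem glueFun_cylA (hH0 : ∀ p, H 0 p = f ((prodMap i (idMap Y)).toFun p))
    (hHinf : ∀ t, H t ∞ = f ∞) (t : unitInterval) (a : A.und.Pt) (y : Y.Pt) :
    glueFun i hi f H (cylA i hi t a) y = H t (smash a y) := by
  unfold glueFun
  split_ifs with h h'
  · obtain ⟨h1, h2⟩ := cylB_eq_cylA i hi h.choose_spec
    rw [h1]
    rcases h2 with h2 | rfl
    · have ha : a = ∞ := hinj ((h1.symm.trans h2).trans i.map_infty.symm)
      subst ha
      rw [i.map_infty, smash_infty_l, smash_infty_l, hHinf]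
    · rw [hH0, prodMap_smash]
      rfl
  · obtain ⟨h1, h2⟩ := cylA_eq_iff i hi hinj h'.choose_spec
    rw [h1]
    rcases h2 with h2 | h2
    · rw [h1] at h2
      subst h2
      rw [smash_infty_l, hHinf, hHinf]
    · rw [h2]
  · exact absurd ⟨(t, a), rfl⟩ h'

end prod

/-- The product of a `G`-cofibration with a `G`-space is a `G`-cofibration. -/
theorem GCofib.prod_right {A B : GSpace G} {i : Map A.und B.und}
    (hi : IsGMap (X := A) (Y := B) i.toFun) (h : GCofib (A := A) (B := B) i) (Y : GSpace G) :
    GCofib (A := A.prod Y) (B := B.prod Y) (prodMap i (idMap Y.und)) := by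
  have hinj := GCofib.injective h
  obtain ⟨K, hK, hK0, hK1⟩ := exists_retr i hi h
  intro Z f H hf hH hH0
  have hH0' : ∀ p, H 0 p = f.toFun ((prodMap i (idMap Y.und)).toFun p) := congrFun hH0
  have hHinf : ∀ t, H t ∞ = f.toFun ∞ := fun t => (hH.1.2 t).trans f.map_infty.symm
  let Φ : (cyl i hi).und.Pt → Y.und.Pt → Z.und.Pt := glueFun i hi f.toFun H
  have hΦB : ∀ b y, Φ ((cylB i hi).toFun b) y = f.toFun (smash b y) := glueFun_cylB i hi _ _
  have hΦA : ∀ t a y, Φ (cylA i hi t a) y = H t (smash a y) :=
    glueFun_cylA i hi hinj (Y := Y.und) (Z := Z.und.Pt) f.toFun H hH0' hHinf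
  have hΦinf : ∀ y, Φ ∞ y = ∞ := by
    intro y
    rw [← (cylB i hi).map_infty, hΦB]
    exact f.map_infty
  have hΦinf' : ∀ m, Φ m ∞ = ∞ := by
    intro m
    rcases cyl_surj i hi m with ⟨b, rfl⟩ | ⟨t, a, rfl⟩
    · rw [hΦB, smash_infty_r]
      exact f.map_infty
    · rw [hΦA, smash_infty_r]
      exact hH.1.2 t
  have hΦg : ∀ g m y, Φ ((cyl i hi).smul g m) (Y.smul g y) = Z.smul g (Φ m y) := by
    intro g m y
    rcases cyl_surj i hi m with ⟨b, rfl⟩ | ⟨t, a, rfl⟩
    · rw [← isGMap_cylB i hi g b, hΦB, hΦB]
      exact (congrArg f.toFun (smul_smash B Y g b y)).symm.trans (hf g _)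
    · rw [← isGMap_cylA i hi t g a, hΦA, hΦA]
      exact (congrArg (H t) (smul_smash A Y g a y)).symm.trans (hH.2 t g _)
  have hΦc : Continuous (Function.uncurry Φ) := by
    let Q : (B.und.Pt × Y.und.Pt) ⊕ (unitInterval × A.und.Pt × Y.und.Pt) →
        (cyl i hi).und.Pt × Y.und.Pt :=
      Sum.elim (fun q => ((cylB i hi).toFun q.1, q.2)) (fun q => (cylA i hi q.1 q.2.1, q.2.2))
    have hQ : IsQuotientMap Q := by
      apply IsQuotientMap.of_surjective_continuous
      · rintro ⟨m, y⟩
        rcases cyl_surj i hi m with ⟨b, rfl⟩ | ⟨t, a, rfl⟩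
        · exact ⟨Sum.inl (b, y), rfl⟩
        · exact ⟨Sum.inr (t, a, y), rfl⟩
      · refine Continuous.sumElim ?_ ?_
        · exact ((cylB i hi).cont.comp continuous_fst).prodMk continuous_snd
        · exact ((continuous_cylA i hi).comp (continuous_fst.prodMk
            (continuous_fst.comp continuous_snd))).prodMk (continuous_snd.comp continuous_snd)
    rw [hQ.continuous_iff]
    have h1 : Function.uncurry Φ ∘ Q =
        Sum.elim (fun q => f.toFun (smash (X := B.und) (Y := Y.und) q.1 q.2))
          (fun q => H q.1 (smash (X := A.und) (Y := Y.und) q.2.1 q.2.2)) := by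
      funext q
      rcases q with q | q
      · exact hΦB q.1 q.2
      · exact hΦA q.1 q.2.1 q.2.2
    rw [h1]
    refine Continuous.sumElim ?_ ?_
    · exact f.cont.comp continuous_smash'
    · exact hH.1.1.comp (continuous_fst.prodMk (continuous_smash'.comp continuous_snd))
  let K' : unitInterval → (B.prod Y).und.Pt → Z.und.Pt := fun t p =>
    p.elim ∞ (fun x : B.carrier × Y.carrier =>
      Φ (K t (x.1 : OnePoint B.carrier)) (x.2 : OnePoint Y.carrier))
  have hK' : ∀ t b y, K' t (smash (X := B.und) (Y := Y.und) b y) = Φ (K t b) y := by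
    intro t b y
    induction b using OnePoint.rec with
    | infty =>
      rw [hK.1.2, hΦinf]
      rfl
    | coe b =>
      induction y using OnePoint.rec with
      | infty =>
        rw [hΦinf']
        rfl
      | coe y => rfl
  refine ⟨K', ⟨⟨?_, fun t => rfl⟩, fun t g p => ?_⟩, ?_, fun t => ?_⟩
  · refine continuous_of_smash (A := B.und) (Y := Y.und) K' ?_
    have h1 : (fun q : unitInterval × B.und.Pt × Y.und.Pt =>
        K' q.1 (smash (X := B.und) (Y := Y.und) q.2.1 q.2.2)) =
        fun q => Φ (K q.1 q.2.1) q.2.2 := by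
      funext q
      exact hK' _ _ _
    rw [h1]
    exact hΦc.comp ((hK.1.1.comp (continuous_fst.prodMk
      (continuous_fst.comp continuous_snd))).prodMk (continuous_snd.comp continuous_snd))
  · obtain ⟨b, y, rfl⟩ := smash_surj (A := B.und) (Y := Y.und) p
    rw [smul_smash, hK', hK', hK.2 t g b, hΦg]
  · funext p
    obtain ⟨b, y, rfl⟩ := smash_surj (A := B.und) (Y := Y.und) p
    rw [hK', hK0, hΦB]
  · funext p
    obtain ⟨a, y, rfl⟩ := smash_surj (A := A.und) (Y := Y.und) p
    have h0 : (prodMap i (idMap Y.und)).toFun (smash a y) = smash (i.toFun a) y :=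
      prodMap_smash _ _ _ _
    have h2 : K t (i.toFun a) = cylA i hi t a := congrFun (hK1 t) a
    refine (congrArg (K' t) h0).trans ((hK' t (i.toFun a) y).trans ?_)
    rw [h2, hΦA]

end Vale.Agent.P241.H858
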