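import Vale.Agent.P241.H858.Basic

/-!
# P241, block GEO-C: products of `G`-maps, `G`-homotopies, `G`-cofibrations and quotients with a
`G`-space

`prodMap f g` is the product (smash product) of two pointed maps. `f × 1_Y` of a `G`-homotopy
equivalence, a `G`-cofibration, a quotient map is one.
-/

open OnePoint Topology CategoryTheory MonoidalCategory
open Vale.Agent.P251.St Vale.Agent.P241.St
open Vale.Agent.P251.G (LC)

namespace Vale.Agent.P241.H858

/-! ### space level -/

section space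

variable {A B X Y X' Y' Z : Space}

theorem smash_surj (p : (A.prod Y).Pt) : ∃ (a : A.Pt) (y : Y.Pt), p = smash a y := by
  induction p using OnePoint.rec with
  | infty => exact ⟨∞, ∞, rfl⟩
  | coe p => exact ⟨(p.1 : OnePoint A.carrier), (p.2 : OnePoint Y.carrier), rfl⟩

@[simp] theorem smash_infty_l (y : Y.Pt) : smash (X := X) (Y := Y) ∞ y = ∞ := rfl

@[simp] theorem smash_infty_r (x : X.Pt) : smash (X := X) (Y := Y) x ∞ = ∞ := by
  induction x using OnePoint.rec <;> rfl

theorem smash_coe (x : X.carrier) (y : Y.carrier) :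
    smash (X := X) (Y := Y) (x : OnePoint X.carrier) (y : OnePoint Y.carrier) =
      ((x, y) : X.carrier × Y.carrier) := rfl

theorem smash_eq_infty {x : X.Pt} {y : Y.Pt} :
    smash (X := X) (Y := Y) x y = ∞ ↔ x = ∞ ∨ y = ∞ :=
  Vale.Agent.P251.G.LC.smash_eq_infty

theorem smash_eq_smash_iff {x x' : X.Pt} {y y' : Y.Pt} :
    smash (X := X) (Y := Y) x y = smash x' y' ↔
      (x = x' ∧ y = y') ∨ ((x = ∞ ∨ y = ∞) ∧ (x' = ∞ ∨ y' = ∞)) := by
  constructor
  · intro h
    by_cases hx : x = ∞ ∨ y = ∞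
    · right
      refine ⟨hx, ?_⟩
      rw [← smash_eq_infty, ← h, smash_eq_infty]
      exact hx
    · left
      have hx' : ¬ (x' = ∞ ∨ y' = ∞) := by
        rw [← smash_eq_infty, ← h, smash_eq_infty]
        exact hx
      push Not at hx hx'
      obtain ⟨a, rfl⟩ := OnePoint.ne_infty_iff_exists.mp hx.1
      obtain ⟨b, rfl⟩ := OnePoint.ne_infty_iff_exists.mp hx.2
      obtain ⟨a', rfl⟩ := OnePoint.ne_infty_iff_exists.mp hx'.1
      obtain ⟨b', rfl⟩ := OnePoint.ne_infty_iff_exists.mp hx'.2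
      have h2 := OnePoint.coe_injective h
      have h3 := Prod.ext_iff.mp h2
      exact ⟨congrArg _ h3.1, congrArg _ h3.2⟩
  · rintro (⟨rfl, rfl⟩ | ⟨h, h'⟩)
    · rfl
    · rw [smash_eq_infty.mpr h, smash_eq_infty.mpr h']

theorem continuous_smash' :
    Continuous (fun p : X.Pt × Y.Pt => (smash p.1 p.2 : (X.prod Y).Pt)) :=
  Vale.Agent.P251.G.LC.continuous_smash

/-- a map on `I × (A × Y)⁺` is continuous if it is continuous on `I × A⁺ × Y⁺` -/
theorem continuous_of_smash {W : Type} [TopologicalSpace W]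
    (F : unitInterval → (A.prod Y).Pt → W)
    (h : Continuous fun q : unitInterval × A.Pt × Y.Pt => F q.1 (smash q.2.1 q.2.2)) :
    Continuous (Function.uncurry F) := by
  have hq : IsQuotientMap (fun q : unitInterval × A.Pt × Y.Pt =>
      (q.1, (smash q.2.1 q.2.2 : (A.prod Y).Pt))) := by
    apply IsQuotientMap.of_surjective_continuous
    · rintro ⟨t, p⟩
      obtain ⟨a, y, rfl⟩ := smash_surj p
      exact ⟨(t, a, y), rfl⟩
    · exact continuous_fst.prodMk (continuous_smash'.comp continuous_snd)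
  rw [hq.continuous_iff]
  exact h

/-- the smash product of two pointed maps -/
def prodMap (f : Map X Y) (g : Map X' Y') : Map (X.prod X') (Y.prod Y') :=
  ofHom (X := X.prod X') (Y := Y.prod Y') (toHom f ⊗ₘ toHom g)

@[simp] theorem prodMap_smash (f : Map X Y) (g : Map X' Y') (x : X.Pt) (x' : X'.Pt) :
    (prodMap f g).toFun (smash x x') = smash (f.toFun x) (g.toFun x') :=
  Vale.Agent.P251.G.LC.app_tensorHom_smash (toHom f) (toHom g) x x'

theorem prodMap_comp {X'' : Space} (f : Map X Y) (g : Map X' Y') (f' : Map Y Z)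
    (g' : Map Y' X'') :
    (prodMap f' g').toFun ∘ (prodMap f g).toFun = (prodMap (compMap f' f) (compMap g' g)).toFun := by
  funext p
  obtain ⟨x, y, rfl⟩ := smash_surj p
  rw [Function.comp_apply, prodMap_smash, prodMap_smash, prodMap_smash]
  rfl

theorem prodMap_id : (prodMap (idMap X) (idMap Y)).toFun = id := by
  funext p
  obtain ⟨x, y, rfl⟩ := smash_surj p
  rw [prodMap_smash]
  rfl

/-- the product of a homotopy and the identity -/
def prodH (H : unitInterval → X.Pt → Y.Pt) (h : IsHtpy H) (Z : Space) (t : unitInterval) :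
    (X.prod Z).Pt → (Y.prod Z).Pt :=
  (prodMap ⟨H t, h.1.comp (continuous_const.prodMk continuous_id), h.2 t⟩ (idMap Z)).toFun

theorem prodH_smash (H : unitInterval → X.Pt → Y.Pt) (h : IsHtpy H) (t : unitInterval)
    (x : X.Pt) (z : Z.Pt) : prodH H h Z t (smash x z) = smash (H t x) z :=
  prodMap_smash _ _ _ _

theorem isHtpy_prodH (H : unitInterval → X.Pt → Y.Pt) (h : IsHtpy H) :
    IsHtpy (prodH H h Z) := by
  refine ⟨?_, fun t => ?_⟩
  · apply continuous_of_smash
    have h1 : (fun q : unitInterval × X.Pt × Z.Pt => prodH H h Z q.1 (smash q.2.1 q.2.2)) =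
        fun q => smash (H q.1 q.2.1) q.2.2 := by
      funext q
      exact prodH_smash H h _ _ _
    rw [h1]
    exact continuous_smash'.comp ((h.1.comp (continuous_fst.prodMk
      (continuous_fst.comp continuous_snd))).prodMk (continuous_snd.comp continuous_snd))
  · exact (prodH_smash H h t ∞ ∞).trans (smash_infty_r _)

theorem prodH_eq_comp (H : unitInterval → X.Pt → X.Pt) (h : IsHtpy H) {t : unitInterval}
    {f : Map X Y} {g : Map Y X} (ht : H t = g.toFun ∘ f.toFun) :
    prodH H h Z t = (prodMap g (idMap Z)).toFun ∘ (prodMap f (idMap Z)).toFun := by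
  funext p
  obtain ⟨x, z, rfl⟩ := smash_surj p
  rw [prodH_smash, ht, Function.comp_apply, Function.comp_apply, prodMap_smash, prodMap_smash]
  rfl

theorem prodH_eq_id (H : unitInterval → X.Pt → X.Pt) (h : IsHtpy H) {t : unitInterval}
    (ht : H t = id) : prodH H h Z t = id := by
  funext p
  obtain ⟨x, z, rfl⟩ := smash_surj p
  rw [prodH_smash, ht]
  rfl

/-- The quotient by the image of `i × 1`. -/
theorem isQuot_prod {C : Space} {i : Map A B} {q : Map B C} (h : IsQuot i q) (Y : Space) :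
    IsQuot (prodMap i (idMap Y)) (prodMap q (idMap Y)) := by
  obtain ⟨h1, h2⟩ := h
  have hinf : ∀ b, q.toFun b = ∞ ↔ b ∈ Set.range i.toFun := by
    intro b
    constructor
    · intro hb
      rcases (h2 b ∞).mp (hb.trans q.map_infty.symm) with h3 | h3
      · exact ⟨∞, i.map_infty.trans h3.symm⟩
      · exact h3.1
    · intro hb
      rw [← q.map_infty]
      exact (h2 b ∞).mpr (Or.inr ⟨hb, ⟨∞, i.map_infty⟩⟩)
  have hr : ∀ (b : B.Pt) (y : Y.Pt), (q.toFun b = ∞ ∨ y = ∞) →
      smash b y ∈ Set.range (prodMap i (idMap Y)).toFun := by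
    rintro b y (hb | rfl)
    · obtain ⟨a, rfl⟩ := (hinf b).mp hb
      exact ⟨smash a y, prodMap_smash _ _ _ _⟩
    · exact ⟨∞, (prodMap i (idMap Y)).map_infty.trans (smash_infty_r b).symm⟩
  have hr' : ∀ (b : B.Pt) (y : Y.Pt), smash b y ∈ Set.range (prodMap i (idMap Y)).toFun →
      q.toFun b = ∞ ∨ y = ∞ := by
    rintro b y ⟨p, hp⟩
    obtain ⟨a, z, rfl⟩ := smash_surj p
    rw [prodMap_smash] at hp
    rcases smash_eq_smash_iff.mp hp with ⟨h3, -⟩ | ⟨-, h3⟩
    · left
      exact (hinf b).mpr ⟨a, h3⟩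
    · rcases h3 with rfl | h3
      · left
        exact q.map_infty
      · right
        exact h3
  constructor
  · intro p
    obtain ⟨c, y, rfl⟩ := smash_surj p
    obtain ⟨b, rfl⟩ := h1 c
    exact ⟨smash b y, prodMap_smash _ _ _ _⟩
  · intro p p'
    obtain ⟨b, y, rfl⟩ := smash_surj p
    obtain ⟨b', y', rfl⟩ := smash_surj p'
    rw [prodMap_smash, prodMap_smash]
    constructor
    · intro h
      rcases smash_eq_smash_iff.mp h with ⟨h3, h4⟩ | ⟨h3, h4⟩
      · have h4' : y = y' := h4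
        subst h4'
        rcases (h2 b b').mp h3 with rfl | ⟨h5, h6⟩
        · left
          rfl
        · right
          exact ⟨hr b y (Or.inl ((hinf b).mpr h5)), hr b' y (Or.inl ((hinf b').mpr h6))⟩
      · right
        exact ⟨hr b y h3, hr b' y' h4⟩
    · rintro (h | ⟨h3, h4⟩)
      · rw [← prodMap_smash, ← prodMap_smash, h]
      · have h5 := smash_eq_infty.mpr (hr' b y h3)
        have h6 := smash_eq_infty.mpr (hr' b' y' h4)
        exact h5.trans h6.symm

end space

/-! ### equivariance -/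

section equi

variable {G : Type} [Group G] {A B X X' Y Z : GSpace G}

theorem smul_smash (X Y : GSpace G) (g : G) (x : X.und.Pt) (y : Y.und.Pt) :
    (X.prod Y).smul g (smash (X := X.und) (Y := Y.und) x y) =
      smash (X := X.und) (Y := Y.und) (X.smul g x) (Y.smul g y) := by
  induction x using OnePoint.rec with
  | infty => rfl
  | coe x =>
    induction y using OnePoint.rec with
    | infty => rfl
    | coe y => rfl

theorem isGMap_prodMap {f : Map X.und X'.und} {g : Map Y.und Z.und}
    (hf : IsGMap (X := X) (Y := X') f.toFun) (hg : IsGMap (X := Y) (Y := Z) g.toFun) :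
    IsGMap (X := X.prod Y) (Y := X'.prod Z) (prodMap f g).toFun := by
  intro a p
  obtain ⟨x, y, rfl⟩ := smash_surj (A := X.und) (Y := Y.und) p
  rw [smul_smash, prodMap_smash, prodMap_smash, hf, hg]
  exact (smul_smash X' Z a _ _).symm

theorem isGHtpy_prodH {H : unitInterval → X.und.Pt → X'.und.Pt}
    (h : IsGHtpy (X := X) (Y := X') H) (Z : GSpace G) :
    IsGHtpy (X := X.prod Z) (Y := X'.prod Z) (prodH H h.1 Z.und) :=
  ⟨isHtpy_prodH H h.1, fun t => isGMap_prodMap
    (f := ⟨H t, h.1.1.comp (continuous_const.prodMk continuous_id), h.1.2 t⟩)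
    (h.2 t) isGMap_id⟩

theorem GHEquiv.prod_right (h : GHEquiv X X') (Z : GSpace G) :
    GHEquiv (X.prod Z) (X'.prod Z) := by
  obtain ⟨f, g, hf, hg, ⟨H, hH, h0, h1⟩, ⟨K, hK, k0, k1⟩⟩ := h
  refine ⟨prodMap f (idMap Z.und), prodMap g (idMap Z.und), isGMap_prodMap hf isGMap_id,
    isGMap_prodMap hg isGMap_id, ⟨_, isGHtpy_prodH hH Z, ?_, ?_⟩, ⟨_, isGHtpy_prodH hK Z, ?_, ?_⟩⟩
  · exact prodH_eq_comp H hH.1 h0
  · exact prodH_eq_id H hH.1 h1
  · exact prodH_eq_comp K hK.1 k0
  · exact prodH_eq_id K hK.1 k1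

end equi

end Vale.Agent.P241.H858
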