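import Vale.Agent.P241.H858.Cof
import Vale.Agent.P251.G.Pushout
import Mathlib.Topology.Homeomorph.Lemmas
import Mathlib.Algebra.Group.Action.Sum

/-!
# P241, block GEO-C: disjoint unions and products of finite `G`-cell spaces

* `sumG X Y` : the disjoint union, `GFC.sumG`;
* `gset S n = S × ℝⁿ` for a `G`-set `S`; `GFC.gset` for finite `S`;
* `GFC.prod : GFC G X → GFC G Y → GFC G (X.prod Y)` for a finite group `G`.
-/

open OnePoint Topology CategoryTheory MonoidalCategory
open Vale.Agent.P251.St Vale.Agent.P241.St
open Vale.Agent.P251.G (LC)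

namespace Vale.Agent.P241.H858

variable {G : Type} [Group G]

/-! ### disjoint unions -/

section sum

instance continuousConstSMul_sum {X Y : Type} [TopologicalSpace X] [TopologicalSpace Y]
    [MulAction G X] [MulAction G Y] [ContinuousConstSMul G X] [ContinuousConstSMul G Y] :
    ContinuousConstSMul G (X ⊕ Y) :=
  ⟨fun g => (continuous_const_smul (T := X) g).sumMap (continuous_const_smul (T := Y) g)⟩

/-- the disjoint union of two `G`-spaces -/
def sumG (X Y : GSpace G) : GSpace G :=
  haveI : LocallyCompactSpace (X.carrier ⊕ Y.carrier) := LC.locallyCompactSpace_sum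
  ⟨X.carrier ⊕ Y.carrier⟩

variable (X Y : GSpace G)

/-- the inclusion of the first summand -/
def inlG : Map X.und (sumG X Y).und :=
  ofHom (X := X.und) (Y := (sumG X Y).und)
    (LC.ofClosed (X := toLC X.und) (Y := toLC (sumG X Y).und) Sum.inl IsClosedEmbedding.inl)

/-- the inclusion of the second summand -/
def inrG : Map Y.und (sumG X Y).und :=
  ofHom (X := Y.und) (Y := (sumG X Y).und)
    (LC.ofClosed (X := toLC Y.und) (Y := toLC (sumG X Y).und) Sum.inr IsClosedEmbedding.inr)

/-- the collapse of the first summand -/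
noncomputable def collG : Map (sumG X Y).und Y.und :=
  ofHom (X := (sumG X Y).und) (Y := Y.und)
    (LC.ofOpen (X := toLC (sumG X Y).und) (Y := toLC Y.und) Sum.inr IsOpenEmbedding.inr)

theorem inlG_coe (x : X.carrier) : (inlG X Y).toFun (x : OnePoint X.carrier) =
    OnePoint.some (X := X.carrier ⊕ Y.carrier) (Sum.inl x) := rfl

theorem inrG_coe (y : Y.carrier) : (inrG X Y).toFun (y : OnePoint Y.carrier) =
    OnePoint.some (X := X.carrier ⊕ Y.carrier) (Sum.inr y) := rfl

theorem collG_inr (y : Y.carrier) :
    (collG X Y).toFun (OnePoint.some (X := X.carrier ⊕ Y.carrier) (Sum.inr y)) =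
      (y : OnePoint Y.carrier) :=
  LC.app_ofOpen_coe (X := toLC (sumG X Y).und) (Y := toLC Y.und) Sum.inr IsOpenEmbedding.inr y

theorem collG_inl (x : X.carrier) :
    (collG X Y).toFun (OnePoint.some (X := X.carrier ⊕ Y.carrier) (Sum.inl x)) = ∞ :=
  LC.app_ofOpen_of_notMem (X := toLC (sumG X Y).und) (Y := toLC Y.und) Sum.inr
    IsOpenEmbedding.inr (by
      rintro ⟨y, hy⟩
      cases hy)

theorem isGMap_inlG : IsGMap (X := X) (Y := sumG X Y) (inlG X Y).toFun := by
  intro g x
  induction x using OnePoint.rec <;> rfl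

theorem isGMap_collG : IsGMap (X := sumG X Y) (Y := Y) (collG X Y).toFun := by
  intro g s
  induction s using OnePoint.rec with
  | infty =>
    exact (collG X Y).map_infty.trans (congrArg (Y.smul g) (collG X Y).map_infty).symm
  | coe s =>
    rcases s with x | y
    · have h1 := collG_inl X Y (g • x)
      have h2 := collG_inl X Y x
      exact h1.trans (congrArg (Y.smul g) h2).symm
    · have h1 := collG_inr X Y (g • y)
      have h2 := collG_inr X Y y
      exact h1.trans (congrArg (Y.smul g) h2).symm

theorem isQuot_collG : IsQuot (inlG X Y) (collG X Y) := by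
  have hr : ∀ s : (sumG X Y).und.Pt, (collG X Y).toFun s = ∞ ↔ s ∈ Set.range (inlG X Y).toFun := by
    intro s
    induction s using OnePoint.rec with
    | infty => exact ⟨fun _ => ⟨∞, rfl⟩, fun _ => (collG X Y).map_infty⟩
    | coe s =>
      rcases s with x | y
      · exact ⟨fun _ => ⟨(x : OnePoint X.carrier), rfl⟩, fun _ => collG_inl X Y x⟩
      · constructor
        · intro h
          exact absurd ((collG_inr X Y y).symm.trans h) (OnePoint.coe_ne_infty _)
        · rintro ⟨a, ha⟩
          induction a using OnePoint.rec with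
          | infty => exact absurd ha (OnePoint.infty_ne_coe _)
          | coe a =>
            have h1 := OnePoint.coe_injective ha
            cases h1
  constructor
  · intro y
    induction y using OnePoint.rec with
    | infty => exact ⟨∞, (collG X Y).map_infty⟩
    | coe y => exact ⟨_, collG_inr X Y y⟩
  · intro s s'
    constructor
    · intro h
      by_cases hs : s ∈ Set.range (inlG X Y).toFun
      · right
        refine ⟨hs, ?_⟩
        rw [← hr, ← h, hr]
        exact hs
      · left
        have hs' : s' ∉ Set.range (inlG X Y).toFun := by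
          rw [← hr, ← h, hr]
          exact hs
        have key : ∀ s : (sumG X Y).und.Pt, s ∉ Set.range (inlG X Y).toFun →
            ∃ y : Y.carrier, s = OnePoint.some (X := X.carrier ⊕ Y.carrier) (Sum.inr y) := by
          intro s hs
          induction s using OnePoint.rec with
          | infty => exact absurd ⟨∞, rfl⟩ hs
          | coe s =>
            rcases s with x | y
            · exact absurd ⟨(x : OnePoint X.carrier), rfl⟩ hs
            · exact ⟨y, rfl⟩
        obtain ⟨y, rfl⟩ := key s hs
        obtain ⟨y', rfl⟩ := key s' hs'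
        have h1 := (collG_inr X Y y).symm.trans (h.trans (collG_inr X Y y'))
        rw [OnePoint.coe_injective h1]
    · rintro (rfl | ⟨h, h'⟩)
      · rfl
      · exact ((hr s).mpr h).trans ((hr s').mpr h').symm

theorem gCofib_inlG : GCofib (A := X) (B := sumG X Y) (inlG X Y) := by
  intro Z f H hf hH hH0
  let K : unitInterval → (sumG X Y).und.Pt → Z.und.Pt := fun t s =>
    s.elim ∞ (Sum.elim (fun x : X.carrier => H t (x : OnePoint X.carrier))
      (fun y : Y.carrier => f.toFun ((inrG X Y).toFun (y : OnePoint Y.carrier))))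
  have hK1 : ∀ t x, K t ((inlG X Y).toFun x) = H t x := by
    intro t x
    induction x using OnePoint.rec with
    | infty => exact (hH.1.2 t).symm
    | coe x => rfl
  have hK2 : ∀ t y, K t ((inrG X Y).toFun y) = f.toFun ((inrG X Y).toFun y) := by
    intro t y
    induction y using OnePoint.rec with
    | infty => exact f.map_infty.symm
    | coe y => rfl
  have hsurj : ∀ s : (sumG X Y).und.Pt, (∃ x, (inlG X Y).toFun x = s) ∨
      ∃ y, (inrG X Y).toFun y = s := by
    intro s
    induction s using OnePoint.rec with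
    | infty => exact Or.inl ⟨∞, rfl⟩
    | coe s =>
      rcases s with x | y
      · exact Or.inl ⟨(x : OnePoint X.carrier), rfl⟩
      · exact Or.inr ⟨(y : OnePoint Y.carrier), rfl⟩
  have hinr : ∀ g y, (inrG X Y).toFun (Y.smul g y) = (sumG X Y).smul g ((inrG X Y).toFun y) := by
    intro g y
    induction y using OnePoint.rec <;> rfl
  refine ⟨K, ⟨⟨?_, fun t => rfl⟩, ?_⟩, ?_, ?_⟩
  · let Q : (unitInterval × X.und.Pt) ⊕ (unitInterval × Y.und.Pt) →
        unitInterval × (sumG X Y).und.Pt :=
      Sum.elim (fun q => (q.1, (inlG X Y).toFun q.2)) (fun q => (q.1, (inrG X Y).toFun q.2))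
    have hQ : IsQuotientMap Q := by
      apply IsQuotientMap.of_surjective_continuous
      · rintro ⟨t, s⟩
        rcases hsurj s with ⟨x, rfl⟩ | ⟨y, rfl⟩
        · exact ⟨Sum.inl (t, x), rfl⟩
        · exact ⟨Sum.inr (t, y), rfl⟩
      · exact Continuous.sumElim
          (continuous_fst.prodMk ((inlG X Y).cont.comp continuous_snd))
          (continuous_fst.prodMk ((inrG X Y).cont.comp continuous_snd))
    rw [hQ.continuous_iff]
    have h1 : Function.uncurry K ∘ Q = Sum.elim (fun q => H q.1 q.2)
        (fun q => f.toFun ((inrG X Y).toFun q.2)) := by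
      funext q
      rcases q with q | q
      · exact hK1 q.1 q.2
      · exact hK2 q.1 q.2
    rw [h1]
    exact Continuous.sumElim hH.1.1 (f.cont.comp ((inrG X Y).cont.comp continuous_snd))
  · intro t g s
    rcases hsurj s with ⟨x, rfl⟩ | ⟨y, rfl⟩
    · rw [← isGMap_inlG X Y g x, hK1, hK1, hH.2 t g x]
    · rw [← hinr, hK2, hK2, hinr, hf g]
  · funext s
    rcases hsurj s with ⟨x, rfl⟩ | ⟨y, rfl⟩
    · rw [hK1, hH0]
      rfl
    · rw [hK2]
  · intro t
    funext x
    exact hK1 t x

variable {X Y}

theorem _root_.Vale.Agent.P241.St.GFC.sumG (hX : GFC G X) (hY : GFC G Y) : GFC G (sumG X Y) :=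
  GFC.ext (isGMap_inlG X Y) (isGMap_collG X Y) (gCofib_inlG X Y) (isQuot_collG X Y) hX hY

end sum

/-! ### finite `G`-sets -/

section gset

/-- The `G`-space `S × ℝⁿ` for a (discrete) `G`-set `S`. -/
def gset (G : Type) [Group G] (S : Type) [MulAction G S] (n : ℕ) : GSpace G :=
  letI : TopologicalSpace S := ⊥
  haveI : DiscreteTopology S := ⟨rfl⟩
  haveI : LocallyCompactSpace S := lc_of_discrete _
  letI : MulAction G (S × (Fin n → ℝ)) :=
    { smul := fun g x => (g • x.1, x.2)
      one_smul := fun x => Prod.ext (_root_.one_smul G x.1) rfl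
      mul_smul := fun g h x => Prod.ext (SemigroupAction.mul_smul g h x.1) rfl }
  haveI : ContinuousConstSMul G (S × (Fin n → ℝ)) :=
    ⟨fun _ => (continuous_of_discreteTopology.comp continuous_fst).prodMk continuous_snd⟩
  ⟨S × (Fin n → ℝ)⟩

theorem cell_eq_gset (V : Subgroup G) (n : ℕ) : cell G V n = gset G (G ⧸ V) n := rfl

/-- an equivalence of sets as a homeomorphism for the discrete topologies -/
def discHomeo {S S' : Type} (e : S ≃ S') : @Homeomorph S S' ⊥ ⊥ :=
  letI : TopologicalSpace S := ⊥
  letI : TopologicalSpace S' := ⊥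
  haveI : DiscreteTopology S := ⟨rfl⟩
  haveI : DiscreteTopology S' := ⟨rfl⟩
  e.toHomeomorphOfDiscrete

theorem gfc_gset_congr {S S' : Type} [MulAction G S] [MulAction G S'] (e : S ≃ S')
    (he : ∀ (g : G) s, e (g • s) = g • e s) {n : ℕ} (h : GFC G (gset G S n)) :
    GFC G (gset G S' n) := by
  letI : TopologicalSpace S := ⊥
  letI : TopologicalSpace S' := ⊥
  refine h.of_homeo ((discHomeo e).prodCongr (Homeomorph.refl (Fin n → ℝ))) ?_
  rintro g ⟨s, v⟩
  exact Prod.ext (he g s) rfl

/-- an invariant subset of a `G`-set -/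
def subAct {S : Type} [MulAction G S] (T : Set S) (hT : ∀ (g : G) s, s ∈ T → g • s ∈ T) :
    MulAction G T where
  smul g s := ⟨g • s.1, hT g s.1 s.2⟩
  one_smul s := Subtype.ext (_root_.one_smul G s.1)
  mul_smul g h s := Subtype.ext (SemigroupAction.mul_smul g h s.1)

open scoped Classical in
theorem gfc_gset_union {S : Type} [MulAction G S] (T : Set S)
    (hT : ∀ (g : G) s, s ∈ T → g • s ∈ T) (hT' : ∀ (g : G) s, s ∈ Tᶜ → g • s ∈ Tᶜ) {n : ℕ}
    (h : letI := subAct T hT; GFC G (gset G T n))
    (h' : letI := subAct Tᶜ hT'; GFC G (gset G (Tᶜ : Set S) n)) : GFC G (gset G S n) := by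
  letI := subAct T hT
  letI := subAct Tᶜ hT'
  letI : TopologicalSpace S := ⊥
  haveI : DiscreteTopology S := ⟨rfl⟩
  have tT : (⊥ : TopologicalSpace T) = instTopologicalSpaceSubtype := by
    have : DiscreteTopology T := inferInstance
    exact this.eq_bot.symm
  have key : GFC G (sumG (gset G T n) (gset G (Tᶜ : Set S) n)) := GFC.sumG h h'
  let e1 : @Homeomorph (T ⊕ (Tᶜ : Set S)) S (@instTopologicalSpaceSum _ _ ⊥ ⊥) ⊥ :=
    letI : TopologicalSpace T := ⊥
    letI : TopologicalSpace (Tᶜ : Set S) := ⊥
    haveI : DiscreteTopology T := ⟨rfl⟩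
    haveI : DiscreteTopology (Tᶜ : Set S) := ⟨rfl⟩
    (Equiv.Set.sumCompl T).toHomeomorphOfDiscrete
  let e2 : (sumG (gset G T n) (gset G (Tᶜ : Set S) n)).carrier ≃ₜ (gset G S n).carrier :=
    letI : TopologicalSpace T := ⊥
    letI : TopologicalSpace (Tᶜ : Set S) := ⊥
    (Homeomorph.sumProdDistrib (X := T) (Y := (Tᶜ : Set S)) (Z := Fin n → ℝ)).symm.trans
      (e1.prodCongr (Homeomorph.refl (Fin n → ℝ)))
  refine key.of_homeo e2 ?_
  rintro g (⟨s, v⟩ | ⟨s, v⟩)
  · rfl
  · rfl

theorem gfc_gset_aux (n : ℕ) : ∀ (N : ℕ) (S : Type) [MulAction G S] [Finite S],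
    Nat.card S ≤ N → GFC G (gset G S n) := by
  intro N
  induction N with
  | zero =>
    intro S _ _ h
    have h0 : Nat.card S = 0 := Nat.le_zero.mp h
    have h1 : IsEmpty S := by
      rcases Nat.card_eq_zero.mp h0 with h2 | h2
      · exact h2
      · exact absurd ‹Finite S› (not_finite_iff_infinite.mpr h2)
    have h2 : IsEmpty (gset G S n).carrier := ⟨fun x => h1.elim x.1⟩
    exact GFC.of_isEmpty _
  | succ N ih =>
    intro S _ _ h
    by_cases hS : IsEmpty S
    · have h2 : IsEmpty (gset G S n).carrier := ⟨fun x => hS.elim x.1⟩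
      exact GFC.of_isEmpty _
    · rw [not_isEmpty_iff] at hS
      obtain ⟨s⟩ := hS
      have hT : ∀ (g : G) x, x ∈ MulAction.orbit G s → g • x ∈ MulAction.orbit G s :=
        fun g x hx => (MulAction.mem_orbit_of_mem_orbit g hx)
      have hT' : ∀ (g : G) x, x ∈ (MulAction.orbit G s)ᶜ → g • x ∈ (MulAction.orbit G s)ᶜ := by
        intro g x hx hgx
        apply hx
        have := hT g⁻¹ _ hgx
        rwa [_root_.inv_smul_smul] at this
      refine gfc_gset_union (MulAction.orbit G s) hT hT' ?_ ?_
      · letI := subAct (MulAction.orbit G s) hT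
        refine gfc_gset_congr (S := G ⧸ MulAction.stabilizer G s)
          (MulAction.orbitEquivQuotientStabilizer G s).symm ?_
          (GFC.cell (MulAction.stabilizer G s) n)
        intro g q
        induction q using QuotientGroup.induction_on with
        | H a =>
          apply Subtype.ext
          have h1 := MulAction.orbitEquivQuotientStabilizer_symm_apply (G := G) s (g * a)
          have h2 := MulAction.orbitEquivQuotientStabilizer_symm_apply (G := G) s a
          change (((MulAction.orbitEquivQuotientStabilizer G s).symm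
            ((g * a : G) : G ⧸ MulAction.stabilizer G s) : MulAction.orbit G s) : S) =
            g • (((MulAction.orbitEquivQuotientStabilizer G s).symm
            ((a : G) : G ⧸ MulAction.stabilizer G s) : MulAction.orbit G s) : S)
          rw [h1, h2, SemigroupAction.mul_smul]
      · letI := subAct (MulAction.orbit G s)ᶜ hT'
        apply ih
        have h1 : Nat.card ((MulAction.orbit G s)ᶜ : Set S) < Nat.card S := by
          rw [Nat.card_coe_set_eq, ← Set.ncard_univ]
          refine Set.ncard_lt_ncard ?_ Set.finite_univ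
          rw [Set.ssubset_univ_iff]
          intro h2
          have h3 : s ∈ (MulAction.orbit G s)ᶜ := by rw [h2]; trivial
          exact h3 (MulAction.mem_orbit_self s)
        omega

/-- `S × ℝⁿ` is a finite `G`-cell space for every finite `G`-set `S`. -/
theorem gfc_gset (S : Type) [MulAction G S] [Finite S] (n : ℕ) : GFC G (gset G S n) :=
  gfc_gset_aux n _ S le_rfl

end gset

end Vale.Agent.P241.H858
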