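import Vale.Agent.P241.H32.Cells
import Vale.Agent.P241.H733.Defs

/-!
# P241: `XA X A m ⟶ XA X A (m + 1)` is a `G`-cofibration

* `gfc_of_closed_compl` : extension criterion: closed invariant subspace, open complement;
* `gcofib_succ` : the inclusion `XA X A m ⟶ XA X A (m + 1)` is a `G`-cofibration;
* `gfc_xa_zero` : `XA X A 0` is a finite `G`-cell space if `X` is one.
-/

open CategoryTheory MonoidalCategory OnePoint Topology Filter
open Vale.Agent.P251 Vale.Agent.P251.St Vale.Agent.P251.G Vale.Agent.P251.G.LC
open Vale.Agent.P241.St Vale.Agent.P241.H486 Vale.Agent.P241.H733 Vale.Agent.P241.H32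

namespace Vale.Agent.P241.H858

variable {G : Type} [Group G]

/-! ### the extension criterion -/

/-- A `G`-space with a closed invariant subspace and its open complement. -/
theorem gfc_of_closed_compl {A B C : GSpace G} (a : A.carrier → B.carrier)
    (c : C.carrier → B.carrier) (ha : IsClosedEmbedding a) (hc : IsOpenEmbedding c)
    (hac : Set.range c = (Set.range a)ᶜ)
    (haG : ∀ (g : G) (x : A.carrier), a (g • x) = g • a x)
    (hcG : ∀ (g : G) (x : C.carrier), c (g • x) = g • c x)
    (hcof : GCofib (A := A) (B := B)
      (ofHom (ofClosed (X := toLC A.und) (Y := toLC B.und) a ha)))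
    (hA : GFC G A) (hC : GFC G C) : GFC G B := by
  let i : toLC A.und ⟶ toLC B.und := ofClosed (X := toLC A.und) (Y := toLC B.und) a ha
  let q : toLC B.und ⟶ toLC C.und := ofOpen (X := toLC B.und) (Y := toLC C.und) c hc
  have hdisj : ∀ x : B.carrier, x ∈ Set.range a → x ∉ Set.range c := fun x h1 h2 => by
    rw [hac] at h2
    exact h2 h1
  have hcov : ∀ x : B.carrier, x ∈ Set.range a ∨ x ∈ Set.range c := by
    intro x
    by_cases hx : x ∈ Set.range a
    · exact Or.inl hx
    · right
      rw [hac]
      exact hx
  have hqc : ∀ x : C.carrier, app q ((c x : B.carrier) : OnePoint B.carrier) =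
      (x : OnePoint C.carrier) := fun x => app_ofOpen_coe (X := toLC B.und) (Y := toLC C.und) c hc x
  have hqn : ∀ x : B.carrier, x ∉ Set.range c → app q (x : OnePoint B.carrier) = ∞ := fun x hx =>
    app_ofOpen_of_notMem (X := toLC B.und) (Y := toLC C.und) c hc hx
  have hiG : IsGMap (X := A) (Y := B) (app i) := isGMap_ofClosed a ha haG
  have hqG : IsGMap (X := B) (Y := C) (app q) := by
    intro g x
    induction x using OnePoint.rec with
    | infty => exact (app_infty q).trans (congrArg (C.smul g) (app_infty q).symm)
    | coe x =>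
      by_cases hx : x ∈ Set.range c
      · obtain ⟨y, rfl⟩ := hx
        refine Eq.trans ?_ (congrArg (C.smul g) (hqc y).symm)
        change app q ((g • c y : B.carrier) : OnePoint B.carrier) =
          ((g • y : C.carrier) : OnePoint C.carrier)
        rw [← hcG]
        exact hqc _
      · refine Eq.trans ?_ (congrArg (C.smul g) (hqn x hx).symm)
        refine hqn (g • x) ?_
        rintro ⟨y, hy⟩
        apply hx
        refine ⟨g⁻¹ • y, ?_⟩
        rw [hcG, hy, _root_.inv_smul_smul]
  have hinf : ∀ b : B.und.Pt, app q b = ∞ ↔ b ∈ Set.range (app i) := by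
    intro b
    induction b using OnePoint.rec with
    | infty => exact ⟨fun _ => ⟨∞, app_infty i⟩, fun _ => app_infty q⟩
    | coe b =>
      rw [mem_range_ofClosed a ha]
      constructor
      · intro h
        refine (hcov b).resolve_right ?_
        rintro ⟨y, rfl⟩
        exact OnePoint.coe_ne_infty _ ((hqc y).symm.trans h)
      · intro h
        exact hqn b (hdisj b h)
  refine GFC.ext (A := A) (B := B) (C := C) (i := ofHom i) (q := ofHom q) hiG hqG hcof ⟨?_, ?_⟩
    hA hC
  · intro x
    induction x using OnePoint.rec with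
    | infty => exact ⟨∞, app_infty q⟩
    | coe x => exact ⟨_, hqc x⟩
  · intro b b'
    constructor
    · intro h
      by_cases hb : b ∈ Set.range (app i)
      · right
        refine ⟨hb, ?_⟩
        have h1 : app q b' = ∞ := h.symm.trans ((hinf b).mpr hb)
        exact (hinf b').mp h1
      · left
        have hb' : b' ∉ Set.range (app i) := fun h1 => hb ((hinf b).mp (h.trans ((hinf b').mpr h1)))
        have key : ∀ b : B.und.Pt, b ∉ Set.range (app i) → ∃ y : C.carrier,
            b = ((c y : B.carrier) : OnePoint B.carrier) := by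
          intro b hb
          induction b using OnePoint.rec with
          | infty => exact absurd ⟨∞, app_infty i⟩ hb
          | coe b =>
            rw [mem_range_ofClosed a ha] at hb
            obtain ⟨y, rfl⟩ := (hcov b).resolve_left hb
            exact ⟨y, rfl⟩
        obtain ⟨y, rfl⟩ := key b hb
        obtain ⟨y', rfl⟩ := key b' hb'
        have h1 : (y : OnePoint C.carrier) = (y' : OnePoint C.carrier) :=
          (hqc y).symm.trans (h.trans (hqc y'))
        rw [OnePoint.coe_injective h1]
    · rintro (rfl | ⟨h, h'⟩)
      · rfl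
      · exact ((hinf b).mpr h).trans ((hinf b').mpr h').symm

/-! ### shrinking the last coordinate -/

section shrink

variable {I : Type}

/-- decrease the norm by `s` -/
noncomputable def decr (s : unitInterval) (x : H733.Star I) : H733.Star I :=
  ⟨fun i => max (x i - s) 0, fun _ => le_max_right _ _, fun i j hi hj => by
    have key : ∀ i, max (x i - (s : ℝ)) 0 ≠ 0 → x i ≠ 0 := by
      intro i h h0
      apply h
      rw [h0]
      exact max_eq_right (by have := s.2.1; linarith)
    exact x.eq_of_ne_zero (key i hi) (key j hj)⟩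

@[simp] theorem decr_apply (s : unitInterval) (x : H733.Star I) (i : I) :
    decr s x i = max (x i - s) 0 := rfl

theorem decr_zero (x : H733.Star I) : decr 0 x = x := by
  ext i
  rw [decr_apply]
  simp [x.nonneg i]

@[simp] theorem decr_zero' (s : unitInterval) : decr s (0 : H733.Star I) = 0 := by
  ext i
  rw [decr_apply, Star.zero_apply]
  have := s.2.1
  exact max_eq_right (by linarith)

theorem decr_smul {G : Type} [Group G] [MulAction G I] (g : G) (s : unitInterval) (x : H733.Star I) :
    decr s (g • x) = g • decr s x := rfl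

theorem ne_zero_of_decr {s : unitInterval} {x : H733.Star I} {i : I} (h : decr s x i ≠ 0) :
    x i ≠ 0 := by
  intro h0
  apply h
  rw [decr_apply, h0]
  exact max_eq_right (by have := s.2.1; linarith)

theorem continuous_decr : Continuous fun q : H733.Star I × unitInterval => decr q.2 q.1 := by
  refine Star.continuous_mk fun i => ?_
  simp only [decr_apply]
  exact (((Star.continuous_eval i).comp continuous_fst).sub
    (continuous_subtype_val.comp continuous_snd)).max continuous_const

/-- the remaining time -/
noncomputable def rest [Fintype I] (s : unitInterval) (x : H733.Star I) : unitInterval :=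
  ⟨max (s - x.nrm) 0, le_max_right _ _, max_le (by
    have := s.2.2
    have := x.nrm_nonneg
    linarith) zero_le_one⟩

theorem rest_val [Fintype I] (s : unitInterval) (x : H733.Star I) :
    (rest s x : ℝ) = max (s - x.nrm) 0 := rfl

theorem rest_zero [Fintype I] (x : H733.Star I) : rest 0 x = 0 := by
  ext
  rw [rest_val]
  have := x.nrm_nonneg
  exact max_eq_right (by simpa using this)

theorem rest_zero' [Fintype I] (s : unitInterval) : rest s (0 : H733.Star I) = s := by
  ext
  rw [rest_val, Star.nrm_zero, sub_zero]
  exact max_eq_left s.2.1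

theorem continuous_rest [Fintype I] : Continuous fun q : H733.Star I × unitInterval => rest q.2 q.1 := by
  refine Continuous.subtype_mk ?_ _
  exact ((continuous_subtype_val.comp continuous_snd).sub
    (Star.continuous_nrm.comp continuous_fst)).max continuous_const

/-- either no time is left or the point is at the cone point -/
theorem rest_or [Fintype I] (s : unitInterval) (x : H733.Star I) :
    rest s x = 0 ∨ decr s x = 0 := by
  rcases le_total (s : ℝ) x.nrm with h | h
  · left
    ext
    rw [rest_val]
    exact max_eq_right (by linarith)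
  · right
    ext i
    rw [decr_apply, Star.zero_apply]
    refine max_eq_right ?_
    by_cases hi : x i = 0
    · rw [hi]
      have := s.2.1
      linarith
    · rw [x.nrm_eq hi] at h
      linarith

end shrink

/-! ### the retraction -/

section retr

variable {X : Type} {A : Subgroup G} {m : ℕ}

section basic

variable [MulAction G X]

/-- decrease the norm of the last coordinate by `s` -/
noncomputable def xaDecr (s : unitInterval) (p : XA X A (m + 1)) : XA X A (m + 1) :=
  ⟨(p.fst, Function.update p.snd (Fin.last m) (decr s (p.snd (Fin.last m)))), by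
    have key : ∀ (i : Fin (m + 1)) (a : G ⧸ A),
        (Function.update p.snd (Fin.last m) (decr s (p.snd (Fin.last m)))) i a ≠ 0 →
          p.snd i a ≠ 0 := by
      intro i a h
      by_cases hi : i = Fin.last m
      · subst hi
        rw [Function.update_self] at h
        exact ne_zero_of_decr h
      · rw [Function.update_of_ne hi] at h
        exact h
    exact ⟨fun i j a b ha hb => p.stab_eq (key i a ha) (key j b hb),
      fun i a ha g hg => p.smul_fst_of_mem_stab (key i a ha) hg⟩⟩

theorem xaDecr_fst (s : unitInterval) (p : XA X A (m + 1)) : (xaDecr s p).fst = p.fst := rfl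

theorem xaDecr_snd (s : unitInterval) (p : XA X A (m + 1)) :
    (xaDecr s p).snd = Function.update p.snd (Fin.last m) (decr s (p.snd (Fin.last m))) := rfl

theorem xaDecr_zero (p : XA X A (m + 1)) : xaDecr 0 p = p := by
  refine XA.ext rfl ?_
  rw [xaDecr_snd, decr_zero, Function.update_eq_self]

theorem xaDecr_of_last {p : XA X A (m + 1)} (h : p.snd (Fin.last m) = 0) (s : unitInterval) :
    xaDecr s p = p := by
  refine XA.ext rfl ?_
  rw [xaDecr_snd, h, decr_zero', ← h, Function.update_eq_self]

theorem xaDecr_smul (g : G) (s : unitInterval) (p : XA X A (m + 1)) :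
    xaDecr s (g • p) = g • xaDecr s p := by
  refine XA.ext rfl ?_
  funext i
  rw [XA.smul_snd, xaDecr_snd, xaDecr_snd]
  by_cases hi : i = Fin.last m
  · subst hi
    rw [Function.update_self, Function.update_self]
    rfl
  · rw [Function.update_of_ne hi, Function.update_of_ne hi]
    rfl

theorem mem_range_succ_iff {p : XA X A (m + 1)} :
    p ∈ Set.range (XA.succ : XA X A m → XA X A (m + 1)) ↔ p.snd (Fin.last m) = 0 := by
  constructor
  · rintro ⟨q, rfl⟩
    exact XA.succ_snd_last q
  · intro h
    refine ⟨p.pred, XA.ext rfl (funext fun i => ?_)⟩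
    refine Fin.lastCases ?_ (fun i' => ?_) i
    · rw [XA.succ_snd_last, h]
    · rw [XA.succ_snd_castSucc]
      rfl

end basic

variable [Finite G] [TopologicalSpace X] [MulAction G X]

theorem continuous_xaDecr :
    Continuous fun q : XA X A (m + 1) × unitInterval => xaDecr q.2 q.1 := by
  have h0 : Continuous fun q : XA X A (m + 1) × unitInterval => q.1.fst :=
    XA.continuous_fst.comp continuous_fst
  refine XA.continuous_mk h0 (continuous_pi fun i => ?_)
  by_cases hi : i = Fin.last m
  · subst hi
    have h : (fun q : XA X A (m + 1) × unitInterval => (xaDecr q.2 q.1).snd (Fin.last m)) =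
        fun q => decr q.2 (q.1.snd (Fin.last m)) := by
      funext q
      rw [xaDecr_snd, Function.update_self]
    rw [h]
    exact continuous_decr.comp ((((continuous_apply (Fin.last m)).comp
      (XA.continuous_snd.comp continuous_fst))).prodMk continuous_snd)
  · have h : (fun q : XA X A (m + 1) × unitInterval => (xaDecr q.2 q.1).snd i) =
        fun q => q.1.snd i := by
      funext q
      rw [xaDecr_snd, Function.update_of_ne hi]
    rw [h]
    exact (continuous_apply i).comp (XA.continuous_snd.comp continuous_fst)

variable [T2Space X] [ContinuousConstSMul G X]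

/-- the coordinates of a point of `XA X A m` -/
def coord (p : XA X A m) : X × (Fin m → (G ⧸ A) → ℝ) := (p.fst, fun i a => p.snd i a)

theorem isClosedEmbedding_coord :
    IsClosedEmbedding (coord : XA X A m → X × (Fin m → (G ⧸ A) → ℝ)) := by
  have h1 : IsClosedEmbedding (fun (z : Fin m → H733.Star (G ⧸ A)) (i : Fin m) =>
      (z i : (G ⧸ A) → ℝ)) := by
    have h : ∀ _ : Fin m, IsClosedEmbedding (fun x : H733.Star (G ⧸ A) => (x : (G ⧸ A) → ℝ)) :=
      fun _ => (Star.isClosed_starSet (I := G ⧸ A)).isClosedEmbedding_subtypeVal
    have hc : Continuous (fun (z : Fin m → H733.Star (G ⧸ A)) (i : Fin m) =>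
        (z i : (G ⧸ A) → ℝ)) :=
      continuous_pi fun i => Star.continuous_coe.comp (continuous_apply i)
    have hind : IsInducing (fun (z : Fin m → H733.Star (G ⧸ A)) (i : Fin m) =>
        (z i : (G ⧸ A) → ℝ)) := IsInducing.piMap fun i => (h i).isInducing
    refine ⟨⟨hind, fun x y hxy => funext fun i => (h i).injective (congrFun hxy i)⟩, ?_⟩
    have hr : Set.range (fun (z : Fin m → H733.Star (G ⧸ A)) (i : Fin m) => (z i : (G ⧸ A) → ℝ)) =
        ⋂ i, (fun w : Fin m → (G ⧸ A) → ℝ => w i) ⁻¹' starSet (G ⧸ A) := by
      ext w
      simp only [Set.mem_range, Set.mem_iInter, Set.mem_preimage]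
      constructor
      · rintro ⟨z, rfl⟩ i
        exact (z i).2
      · intro hw
        exact ⟨fun i => ⟨w i, hw i⟩, rfl⟩
    rw [hr]
    exact isClosed_iInter fun i => Star.isClosed_starSet.preimage (continuous_apply i)
  have h2 := (IsClosedEmbedding.id (X := X)).prodMap h1
  exact h2.comp XA.isClosedEmbedding_val

/-- the retraction of the cylinder on `XA X A (m + 1)` -/
noncomputable def xaRetr [Fintype (G ⧸ A)] (q : XA X A (m + 1) × unitInterval) :
    XA X A (m + 1) × unitInterval :=
  (xaDecr q.2 q.1, rest q.2 (q.1.snd (Fin.last m)))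

theorem continuous_xaRetr [Fintype (G ⧸ A)] :
    Continuous (xaRetr : XA X A (m + 1) × unitInterval → _) :=
  continuous_xaDecr.prodMk (continuous_rest.comp ((((continuous_apply (Fin.last m)).comp
    (XA.continuous_snd.comp continuous_fst))).prodMk continuous_snd))

theorem tendsto_xaRetr [Fintype (G ⧸ A)] :
    Tendsto (xaRetr : XA X A (m + 1) × unitInterval → _)
      (cocompact (XA X A (m + 1) × unitInterval)) (cocompact (XA X A (m + 1) × unitInterval)) := by
  intro U hU
  obtain ⟨K, hK, hKU⟩ := mem_cocompact.mp hU
  -- the coordinates on `K` are bounded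
  let c : XA X A (m + 1) × unitInterval → Fin (m + 1) → (G ⧸ A) → ℝ := fun q => (coord q.1).2
  have hc : Continuous c :=
    continuous_snd.comp (isClosedEmbedding_coord.continuous.comp continuous_fst)
  obtain ⟨C, hC⟩ := (hK.image hc).isBounded.exists_norm_le
  let KX : Set X := (fun q : XA X A (m + 1) × unitInterval => q.1.fst) '' K
  have hKX : IsCompact KX := hK.image (XA.continuous_fst.comp continuous_fst)
  let L0 : Set (X × (Fin (m + 1) → (G ⧸ A) → ℝ)) := KX ×ˢ Metric.closedBall 0 (C + 1)
  have hL0 : IsCompact L0 := hKX.prod (isCompact_closedBall _ _)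
  have hL1 : IsCompact ((coord : XA X A (m + 1) → _) ⁻¹' L0) :=
    isClosedEmbedding_coord.isCompact_preimage hL0
  refine mem_cocompact.mpr ⟨((coord : XA X A (m + 1) → _) ⁻¹' L0) ×ˢ Set.univ,
    hL1.prod isCompact_univ, ?_⟩
  intro q hq
  apply hKU
  intro hqK
  apply hq
  refine ⟨⟨⟨xaRetr q, hqK, rfl⟩, ?_⟩, Set.mem_univ _⟩
  rw [mem_closedBall_zero_iff]
  have hb := hC _ ⟨xaRetr q, hqK, rfl⟩
  have hC0 : 0 ≤ C := (norm_nonneg _).trans hb
  refine (pi_norm_le_iff_of_nonneg (by linarith)).mpr fun i => ?_
  refine (pi_norm_le_iff_of_nonneg (by linarith)).mpr fun a => ?_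
  have h1 : |((xaRetr q).1.snd i a : ℝ)| ≤ C := by
    have h2 := (norm_le_pi_norm (c (xaRetr q) i) a).trans (norm_le_pi_norm (c (xaRetr q)) i)
    exact (h2.trans hb)
  have h3 : q.1.snd i a ≤ (xaRetr q).1.snd i a + 1 := by
    change q.1.snd i a ≤ (xaDecr q.2 q.1).snd i a + 1
    rw [xaDecr_snd]
    by_cases hi : i = Fin.last m
    · subst hi
      rw [Function.update_self, decr_apply]
      have h4 := le_max_left (q.1.snd (Fin.last m) a - (q.2 : ℝ)) 0
      have h5 := q.2.2.2
      linarith
    · rw [Function.update_of_ne hi]
      linarith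
  have h4 := q.1.snd i |>.nonneg a
  change |q.1.snd i a| ≤ C + 1
  rw [abs_of_nonneg h4]
  have h5 := le_abs_self ((xaRetr q).1.snd i a : ℝ)
  linarith

end retr

/-! ### the cofibration -/

section cof

variable [Finite G] (X : GSpace G) (A : Subgroup G) (m : ℕ)

theorem gcofib_succ : GCofib (A := xaG X A m) (B := xaG X A (m + 1))
    (ofHom (ofClosed (X := toLC (xaG X A m).und) (Y := toLC (xaG X A (m + 1)).und)
      (XA.succ : XA X.carrier A m → XA X.carrier A (m + 1)) XA.isClosedEmbedding_succ)) := by
  classical
  haveI : Fintype (G ⧸ A) := Fintype.ofFinite _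
  let i : toLC (xaG X A m).und ⟶ toLC (xaG X A (m + 1)).und :=
    ofClosed (X := toLC (xaG X A m).und) (Y := toLC (xaG X A (m + 1)).und)
      (XA.succ : XA X.carrier A m → XA X.carrier A (m + 1)) XA.isClosedEmbedding_succ
  have hiG : IsGMap (X := xaG X A m) (Y := xaG X A (m + 1)) (app i) :=
    isGMap_ofClosed (X := xaG X A m) (Y := xaG X A (m + 1)) _ XA.isClosedEmbedding_succ
      (fun g x => XA.succ_smul g x)
  have hmem : ∀ b : XA X.carrier A (m + 1),
      (OnePoint.some b : (xaG X A (m + 1)).und.Pt) ∈ Set.range (app i) ↔
        b.snd (Fin.last m) = 0 := by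
    intro b
    rw [← mem_range_succ_iff]
    exact mem_range_ofClosed (A := xaG X A m) (B := xaG X A (m + 1)) _
      XA.isClosedEmbedding_succ b
  let r : toLC (xaG X A (m + 1)).und ⊗ II ⟶ toLC (xaG X A (m + 1)).und ⊗ II :=
    ofProper (X := LC.of (XA X.carrier A (m + 1) × unitInterval))
      (Y := LC.of (XA X.carrier A (m + 1) × unitInterval)) xaRetr continuous_xaRetr tendsto_xaRetr
  have hr : ∀ (b : XA X.carrier A (m + 1)) (t : unitInterval),
      app r (LC.smash (OnePoint.some b : (xaG X A (m + 1)).und.Pt) (t : OnePoint unitInterval)) =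
        LC.smash (OnePoint.some (xaDecr t b) : (xaG X A (m + 1)).und.Pt)
          ((rest t (b.snd (Fin.last m)) : unitInterval) : OnePoint unitInterval) :=
    fun b t => rfl
  refine gcofib_of_isRetr (A := xaG X A m) (B := xaG X A (m + 1)) (i := ofHom i) hiG
    (injective_app_ofClosed (Z := toLC (xaG X A m).und) (Y := toLC (xaG X A (m + 1)).und) _
      XA.isClosedEmbedding_succ) (r := r) ⟨?_, ?_, ?_⟩ ?_
  · intro b
    induction b using OnePoint.rec with
    | infty => rfl
    | coe b => rw [hr, xaDecr_zero, rest_zero]
  · intro b hb t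
    induction b using OnePoint.rec with
    | infty => rfl
    | coe b =>
      have hb' := (hmem b).mp hb
      rw [hr, xaDecr_of_last hb', hb', rest_zero']
  · intro p
    induction p using OnePoint.rec with
    | infty => exact ⟨∞, 0, rfl, Or.inl rfl⟩
    | coe p =>
      obtain ⟨b, t⟩ := p
      refine ⟨(OnePoint.some (xaDecr t b) : (xaG X A (m + 1)).und.Pt),
        rest t (b.snd (Fin.last m)), hr b t, ?_⟩
      rcases rest_or t (b.snd (Fin.last m)) with h | h
      · exact Or.inl h
      · right
        refine (hmem _).mpr ?_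
        rw [xaDecr_snd, Function.update_self, h]
  · intro g b t
    induction b using OnePoint.rec with
    | infty => rfl
    | coe b =>
      refine (hr (g • b) t).trans ?_
      rw [hr]
      refine Eq.trans ?_ (H486.smul_smash (xaG X A (m + 1)) ⟨unitInterval⟩ g _ _).symm
      rw [xaDecr_smul, XA.smul_snd]
      have h1 : rest t (g • b.snd (Fin.last m)) = rest t (b.snd (Fin.last m)) := by
        ext
        rw [rest_val, rest_val, Star.nrm_smul]
      rw [h1]
      rfl

/-- `XA X A 0` is homeomorphic to `X` -/
theorem gfc_xa_zero (hX : GFC G X) : GFC G (xaG X A 0) := by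
  refine gfc_of_homeo (X := X) (Y := xaG X A 0) hX
    { toFun := (XA.incl : X.carrier → XA X.carrier A 0)
      invFun := XA.fst
      left_inv := fun x => rfl
      right_inv := fun p => XA.ext rfl (funext fun i => i.elim0)
      continuous_toFun := XA.isClosedEmbedding_incl.continuous
      continuous_invFun := XA.continuous_fst } (fun g x => XA.incl_smul g x)

end cof

end Vale.Agent.P241.H858
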